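import Vale.Agent.P251.S.LocMod
import Vale.Agent.P251.S.ModExt
import Vale.Agent.P251.S.ModTens
import Vale.Agent.P251.S.TensorShift
import Vale.Agent.P251.X.Split

/-!
# P221X, block EXIST: the local quotient of a monoid is a retract of its localisation

`Quo Λ v` : the quotient of `L R` by the elements `v : W₁ ⟶ R`; `exists_quo` : it exists if
`R ⊗ R` has, locally, a basis which is adapted to the right multiplication by `v`.
-/

open CategoryTheory MonoidalCategory Limits Pretriangulated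

set_option linter.unusedSectionVars false

universe u

noncomputable section

namespace Vale.Agent.P221X.EXI

open Vale.Agent.P251 Vale.Agent.P251.T Vale.Agent.P251.S Vale.Agent.P251.S.ModStr

variable {T : Type u} [Category.{0} T] [Preadditive T] [HasZeroObject T] [HasShift T ℤ]
  [∀ n : ℤ, (shiftFunctor T n).Additive] [Pretriangulated T] [IsTriangulated T]
  [MonoidalCategory T] [SymmetricCategory T] [TensorTriangulated T] [MonoidalClosed T]
  [HasCoproducts.{0} T] [HasProducts.{0} T] [StableCat T] {K R : T} [MonObj R]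

/-- the free module -/
abbrev fr (R : T) [MonObj R] (A : T) : ModStr R (R ⊗ A) := (self R).tensorRight A

theorem wl_sub (Z : T) {A B : T} (f g : A ⟶ B) : Z ◁ (f - g) = Z ◁ f - Z ◁ g :=
  (tensorLeft Z).map_sub

theorem wr_sub (Z : T) {A B : T} (f g : A ⟶ B) : (f - g) ▷ Z = f ▷ Z - g ▷ Z :=
  (tensorRight Z).map_sub

/-- universal coefficients for a local basis -/
theorem uct {A W P : T} {g : W ⟶ R ⊗ A} (hg : KEq K ((fr R A).ext g)) (m : ModStr R P)
    (hP : IsLocal K P) : Function.Bijective fun f : A ⟶ P => g ≫ m.ext f := by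
  refine ⟨fun f f' h => ?_, fun y => ?_⟩
  · have h1 : m.ext f = m.ext f' := hg.hom_ext hP (by
      rw [ext_comp _ m _ _ (m.ext_linear f), ext_comp _ m _ _ (m.ext_linear f')]
      exact congrArg _ h)
    rw [← m.unitMap_ext f, h1, unitMap_ext]
  · have h1 := hg.comp_ext hP (m.ext y)
    have h2 : (fr R A).IsLinear m (hg.ext hP (m.ext y)) := (hg.whiskerLeft R).hom_ext hP (by
      rw [← Category.assoc, ← (fr R A).ext_linear g, Category.assoc, h1,
        ← whiskerLeft_comp_assoc, h1, m.ext_linear y])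
    refine ⟨unitMap R A ≫ hg.ext hP (m.ext y), ?_⟩
    change g ≫ m.ext _ = y
    rw [m.ext_unitMap _ h2]
    exact ((fr R A).unitMap_ext_assoc g _).symm.trans
      ((congrArg _ h1).trans (m.unitMap_ext y))

theorem ext_tensor {A W : T} (g : W ⟶ R ⊗ A) (Z : T) :
    (fr R (A ⊗ Z)).ext (g ▷ Z ≫ (α_ _ _ _).hom) =
      (α_ _ _ _).inv ≫ (fr R A).ext g ▷ Z ≫ (α_ _ _ _).hom := by
  simp only [ModStr.ext, ModStr.tensorRight]
  monoidal

/-- The quotient of `L R` by `v`. -/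
structure Quo (Λ : LocFunctor K) {W₁ : T} (v : W₁ ⟶ R) where
  X : T
  mod : ModStr R X
  r : Λ.L.obj R ⟶ X
  s : X ⟶ Λ.L.obj R
  β : Λ.L.obj R ⟶ Λ.L.obj (R ⊗ W₁)
  s_r : s ≫ r = 𝟙 X
  r_s : r ≫ s + β ≫ Λ.L.map ((self R).ext v) = 𝟙 _
  v_r : Λ.L.map ((self R).ext v) ≫ r = 0
  lin : (Λ.mod (self R)).IsLinear mod r

theorem exists_quo (Λ : LocFunctor K) {W₁ : T} (v : W₁ ⟶ R) {I : Type} {S : I → T}
    (γ : ∀ b, S b ⟶ R ⊗ R) (hit : I → Prop) (hγ : KEq K ((fr R R).ext (Sigma.desc γ)))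
    (h1 : ∀ (P : T) (y : R ⊗ R ⟶ P), (∀ b, hit b → γ b ≫ y = 0) →
      ∀ b, γ b ▷ W₁ ≫ (α_ _ _ _).hom ≫ R ◁ (self R).ext v ≫ y = 0)
    (h2 : ∀ b, hit b → ∃ y : S b ⟶ R ⊗ W₁, y ≫ (self R).ext v = γ b ≫ (self R).act) :
    Nonempty (Quo Λ v) := by
  classical
  set Φ := (self R).ext v
  have hΦ := Λ.isLinear_map _ ((self R).ext_linear v)
  choose y hy using h2
  obtain ⟨β₀, hβ⟩ := (uct hγ (Λ.mod (fr R W₁)) (Λ.isLocal _)).2
    (Sigma.desc fun b => if h : hit b then y b h ≫ Λ.u _ else 0)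
  have he : Φ ≫ (Λ.u R - β₀ ≫ Λ.L.map Φ) = 0 := by
    have h3 : KEq K ((fr R (R ⊗ W₁)).ext (Sigma.desc γ ▷ W₁ ≫ (α_ _ _ _).hom)) := by
      rw [ext_tensor]
      exact (KEq.of_isIso _).comp ((hγ.whiskerRight _).comp (KEq.of_isIso _))
    refine (uct h3 (Λ.mod (self R)) (Λ.isLocal _)).1 ((isColimitOfPreserves (tensorRight W₁)
      (coproductIsCoproduct S)).hom_ext fun ⟨b⟩ => ?_)
    change Sigma.ι S b ▷ W₁ ≫ _ = Sigma.ι S b ▷ W₁ ≫ _
    simp only [Category.assoc]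
    rw [← comp_whiskerRight_assoc, ← comp_whiskerRight_assoc, Sigma.ι_desc, ← comp_ext,
      h1 _ _ (fun b hb => ?_) b]
    · simp [ModStr.ext]
    · have h4 := congrArg (Sigma.ι S b ≫ · ≫ Λ.L.map Φ) hβ
      simp only [Category.assoc, Sigma.ι_desc_assoc, dif_pos hb, Λ.u_naturality] at h4
      rw [reassoc_of% hy b hb, ext_comp _ _ _ _ hΦ] at h4
      rw [ModStr.ext, wl_sub, Preadditive.sub_comp,
        Λ.whiskerLeft_u_mod_act, Preadditive.comp_sub, ← h4, ModStr.ext, sub_self]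
  obtain ⟨β, hu⟩ : ∃ β : Λ.L.obj R ⟶ _, Λ.u R ≫ β = β₀ := ⟨_, Λ.u_desc (Λ.isLocal _) β₀⟩
  have h5 : Λ.L.map Φ ≫ (𝟙 _ - β ≫ Λ.L.map Φ) = 0 := Λ.hom_ext (Λ.isLocal _) (by
    rw [← Category.assoc, Λ.u_naturality, Category.assoc, Preadditive.comp_sub, Category.comp_id,
      reassoc_of% hu, he, comp_zero])
  obtain ⟨X, s, r, h6, h7⟩ := X.exists_split (𝟙 _ - β ≫ Λ.L.map Φ) (by
    rw [Preadditive.sub_comp, Category.id_comp, Category.assoc, h5, comp_zero, sub_zero])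
  have h8 : Λ.L.map Φ ≫ r = 0 := by
    rw [← Category.comp_id r, ← h6, reassoc_of% h7, reassoc_of% h5, zero_comp]
  have h9 : R ◁ r ≫ R ◁ s ≫ (Λ.mod (self R)).act ≫ r = (Λ.mod (self R)).act ≫ r := by
    rw [← whiskerLeft_comp_assoc, h7, wl_sub, Preadditive.sub_comp,
      whiskerLeft_comp, Category.assoc, ← reassoc_of% hΦ, h8]
    simp
  refine ⟨⟨X, ⟨R ◁ s ≫ (Λ.mod (self R)).act ≫ r, ?_, ?_⟩, r, s, β, h6, by rw [h7, sub_add_cancel],
    h8, h9.symm⟩⟩
  · rw [← whisker_exchange_assoc, reassoc_of% (Λ.mod (self R)).one_act,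
      leftUnitor_naturality_assoc, h6, Category.comp_id]
  · rw [← whisker_exchange_assoc, reassoc_of% (Λ.mod (self R)).mul_act,
      associator_naturality_right_assoc, whiskerLeft_comp, whiskerLeft_comp]
    simp only [Category.assoc, h9]

/-- the same, with the hypotheses for each index -/
theorem exists_quo' (Λ : LocFunctor K) {J : Type} {A : J → T} (v : ∀ j, A j ⟶ R) {I : Type}
    {S : I → T} (γ : ∀ b, S b ⟶ R ⊗ R) (hit : I → Prop)
    (hγ : KEq K ((fr R R).ext (Sigma.desc γ)))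
    (h1 : ∀ b j, ∃ (b' : I) (d : S b ⊗ A j ⟶ S b'), hit b' ∧
      γ b ▷ A j ≫ (α_ _ _ _).hom ≫ R ◁ (self R).ext (v j) = d ≫ γ b')
    (h2 : ∀ b, hit b → ∃ (j : J) (c : S b ⟶ R ⊗ (R ⊗ A j)), γ b = c ≫ R ◁ (self R).ext (v j)) :
    Nonempty (Quo Λ (Sigma.desc v)) := by
  have h0 : ∀ j, R ◁ Sigma.ι A j ≫ (self R).ext (Sigma.desc v) = (self R).ext (v j) := fun j => by
    rw [comp_ext, Sigma.ι_desc]
  refine exists_quo Λ _ γ hit hγ (fun P y hy b => (isColimitOfPreserves (tensorLeft (S b))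
    (coproductIsCoproduct A)).hom_ext fun ⟨j⟩ => ?_) fun b hb => ?_
  · obtain ⟨b', d, h, hd⟩ := h1 b j
    change S b ◁ Sigma.ι A j ≫ _ = S b ◁ Sigma.ι A j ≫ _
    rw [whisker_exchange_assoc, associator_naturality_right_assoc, ← whiskerLeft_comp_assoc, h0,
      reassoc_of% hd, hy b' h, comp_zero, comp_zero]
  · obtain ⟨j, c, hc⟩ := h2 b hb
    refine ⟨c ≫ (fr R (A j)).act ≫ R ◁ Sigma.ι A j, ?_⟩
    rw [hc, Category.assoc, Category.assoc, Category.assoc, h0, (self R).ext_linear (v j)]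

namespace Quo

variable {Λ : LocFunctor K} {W₁ : T} {v : W₁ ⟶ R} (Q : Quo Λ v)

theorem loc : IsLocal K Q.X := (Λ.isLocal R).retract Q.s Q.r Q.s_r

/-- the quotient map -/
def q : R ⟶ Q.X := Λ.u R ≫ Q.r

theorem q_lin : (self R).IsLinear Q.mod Q.q := (Λ.isLinear_u _).comp Q.lin

theorem v_q : (self R).ext v ≫ Q.q = 0 := by
  rw [q, ← Category.assoc, ← Λ.u_naturality, Category.assoc, Q.v_r, comp_zero]

/-- maps to local objects are determined by their restrictions to `Z ⊗ R` -/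
theorem hom_ext {Y : T} (hY : IsLocal K Y) (Z : T) {f g : Z ⊗ Q.X ⟶ Y}
    (h : Z ◁ Q.q ≫ f = Z ◁ Q.q ≫ g) : f = g := by
  have h1 : Z ◁ Q.r ≫ f = Z ◁ Q.r ≫ g := ((Λ.keq R).whiskerLeft Z).hom_ext hY (by
    rwa [← whiskerLeft_comp_assoc, ← whiskerLeft_comp_assoc])
  have h2 := congrArg (Z ◁ Q.s ≫ ·) h1
  simpa only [← whiskerLeft_comp_assoc, Q.s_r, whiskerLeft_id, Category.id_comp] using h2

/-- the universal property -/
theorem exists_desc {Y : T} (hY : IsLocal K Y) (m : ModStr R Y) {g : R ⟶ Y}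
    (hg : (self R).IsLinear m g) (h : (self R).ext v ≫ g = 0) :
    ∃ f : Q.X ⟶ Y, Q.mod.IsLinear m f ∧ Q.q ≫ f = g := by
  have h1 : Λ.L.map ((self R).ext v) ≫ Λ.desc hY g = 0 := Λ.hom_ext hY (by
    rw [← Category.assoc, Λ.u_naturality, Category.assoc, Λ.u_desc, h, comp_zero])
  have h2 : Q.q ≫ Q.s ≫ Λ.desc hY g = g := by
    rw [q, Category.assoc, ← Category.assoc Q.r, eq_sub_of_add_eq Q.r_s, Preadditive.sub_comp,
      Category.assoc, h1, comp_zero, sub_zero, Category.id_comp, Λ.u_desc]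
  refine ⟨_, Q.hom_ext hY R ?_, h2⟩
  rw [← Category.assoc, ← Q.q_lin, Category.assoc, h2, ← whiskerLeft_comp_assoc, h2, hg]

/-- the kernel of `r ⊗ V` -/
theorem ker {A V : T} (y : A ⟶ Λ.L.obj R ⊗ V) (hy : y ≫ Q.r ▷ V = 0) :
    y = (y ≫ Q.β ▷ V) ≫ Λ.L.map ((self R).ext v) ▷ V := by
  have h := congrArg (fun f => y ≫ f ▷ V) Q.r_s
  simpa only [MonoidalPreadditive.add_whiskerRight, comp_whiskerRight, Preadditive.comp_add,
    reassoc_of% hy, zero_comp, zero_add, id_whiskerRight, Category.comp_id, Category.assoc,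
    eq_comm] using h

theorem surj {A V : T} (x : A ⟶ Q.X ⊗ V) : x = (x ≫ Q.s ▷ V) ≫ Q.r ▷ V := by
  rw [Category.assoc, ← comp_whiskerRight, Q.s_r, id_whiskerRight, Category.comp_id]

end Quo

end Vale.Agent.P221X.EXI
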