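import Vale.Agent.P221X.TC.Tel
import Vale.Agent.P221X.EXI.Idem
import Vale.Agent.P221X.EXG.Glue

/-!
# P221X, block EXIST: the interfaces of the gluing step

* `XIn W Φ q₁ q₂` : the homotopy of the local quotients `X¹`, `X²`;
* `YIn W X₁ u` : the localisation `u : X² ⟶ Y = L₁ X²`;
* `POut W Φ q` : the homotopy of the pullback; `RowQ` : it follows from `XIn`, `YIn`.
-/

open CategoryTheory MonoidalCategory Limits Pretriangulated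

set_option linter.unusedSectionVars false

universe u

noncomputable section

namespace Vale.Agent.P221X.EXI

open Vale.Agent.P251 Vale.Agent.P251.T Vale.Agent.P251.M Vale.Agent.P251.S Vale.Agent.P251.I
  Vale.Agent.P221X.TC Vale.Agent.P221X.EXG

variable {T : Type u} [Category.{0} T] [Preadditive T] [HasZeroObject T] [HasShift T ℤ]
  [∀ n : ℤ, (shiftFunctor T n).Additive] [Pretriangulated T] [IsTriangulated T]
  [MonoidalCategory T] [SymmetricCategory T] [TensorTriangulated T] [MonoidalClosed T]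
  [HasCoproducts.{0} T] [HasProducts.{0} T] [StableCat T]
  {D : MUData T} {p : ℕ} (W : TD.Twr D p)

/-- The homotopy of the local quotients (`Φ` is the multiplication by `v₃, v₄, …`). -/
structure XIn {A R X₁ X₂ : T} (Φ : A ⟶ R) (q₁ : R ⟶ X₁) (q₂ : R ⟶ X₂) : Prop where
  oR : OddZero (R ⊗ W.M)
  s1 : ∀ x : He (X₁ ⊗ W.M), ∃ (n : ℕ) (a : He (R ⊗ W.M)),
    (fw W.f1 X₁)^[n] x = He.map (q₁ ▷ W.M) a
  k1 : ∀ a : He (R ⊗ W.M), He.map (q₁ ▷ W.M) a = 0 → ∃ y, He.map (Φ ▷ W.M) y = a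
  o1 : OddZero (X₁ ⊗ W.M)
  o2 : OddZero (X₂ ⊗ W.V1)
  k2 : ∀ a : He (R ⊗ W.M), He.map (q₂ ▷ W.M ≫ X₂ ◁ W.j1) a = 0 →
    ∃ a' y, a = fw W.f1 R a' + He.map (Φ ▷ W.M) y
  s2 : ∀ j : ℤ, 0 ≤ j → ∀ x : Se T j ⟶ X₂ ⊗ W.V1,
    ∃ a : Se T j ⟶ R ⊗ W.M, a ≫ q₂ ▷ W.M ≫ X₂ ◁ W.j1 = x

/-- The localisation at `v₁`. -/
structure YIn (X₁ : T) {X₂ Y : T} (u : X₂ ⟶ Y) : Prop where
  b1 : Function.Bijective (fw W.f1 X₁)
  bY : Function.Bijective (fw W.f1 Y)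
  sY : ∀ y : He (Y ⊗ W.M), ∃ (n : ℕ) (x : He (X₂ ⊗ W.M)),
    (fw W.f1 Y)^[n] y = He.map (u ▷ W.M) x
  kY : ∀ x : He (X₂ ⊗ W.M), He.map (u ▷ W.M) x = 0 → ∃ n : ℕ, (fw W.f1 X₂)^[n] x = 0
  o2M : OddZero (X₂ ⊗ W.M)
  oYM : OddZero (Y ⊗ W.M)
  oY : OddZero Y

/-- The homotopy of the pullback. -/
structure POut {R P : T} (q : R ⟶ P) : Prop where
  odd : ∀ k : ℤ, Odd k → 0 ≤ k → ∀ x : Sph T k ⟶ P ⊗ W.M, x = 0
  surj : Function.Surjective (He.map (q ▷ W.M))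

/-- Row Q -/
def RowQ : Prop :=
  ∀ {A R X₁ X₂ Y : T} (Φ : A ⟶ R) (q₁ : R ⟶ X₁) (q₂ : R ⟶ X₂) (u : X₂ ⟶ Y) (f : X₁ ⟶ Y)
    (H : HPB u f) (q : R ⟶ H.P), q ≫ H.i = q₂ → q ≫ H.i' = q₁ → Φ ≫ q₁ = 0 → Φ ≫ q₂ = 0 →
      XIn W Φ q₁ q₂ → YIn W X₁ u → POut W q

end Vale.Agent.P221X.EXI
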