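import Vale.Agent.P221X.EXI.AlgE
import Mathlib.LinearAlgebra.DirectSum.Finsupp
import Mathlib.Algebra.Module.LocalizedModule.Basic

/-!
# P221X, block EXIST, row ALG: the basis `t^E (η v)^F` with coefficients in a module
-/

open MvPolynomial

noncomputable section

namespace Vale.Agent.P221X.EXI.Alg

open Vale.Agent.P221.T Vale.Agent.P221.T.H520

variable (p : ℕ) [hp : Fact p.Prime] (h : ℕ)

/-- the index set -/
abbrev Ix : Type := Sm (2 - h) (p ^ h) × (ℕ →₀ ℕ)

variable {h}

/-- the integral family `t^E (η v)^F` -/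
def b0 (x : Ix p h) : G0 p := monomial x.1.1 1 * x.2.prod fun j n => eta0 p (j + 2) ^ n

/-- its degree -/
def db (x : Ix p h) : ℤ := dT p x.1.1 + Finsupp.weight (fun j => sV p (j + 2 + 1)) x.2

theorem b0_zero (E : Sm (2 - h) (p ^ h)) : b0 p (E, 0) = monomial E.1 1 := by
  rw [b0, Finsupp.prod_zero_index, mul_one]

theorem b0_add (E : Sm (2 - h) (p ^ h)) (F F' : ℕ →₀ ℕ) :
    b0 p (E, F + F') = b0 p (E, F) * F'.prod fun j n => eta0 p (j + 2) ^ n := by
  rw [b0, b0, Finsupp.prod_add_index' (fun _ => pow_zero _) fun _ _ _ => pow_add _ _ _, mul_assoc]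

theorem b0_succ (E : Sm (2 - h) (p ^ h)) (F : ℕ →₀ ℕ) (j : ℕ) :
    b0 p (E, F + Finsupp.single j 1) = b0 p (E, F) * eta0 p (j + 2) := by
  rw [b0_add, Finsupp.prod_single_index (h := fun j n => eta0 p (j + 2) ^ n) (pow_zero _), pow_one]

theorem db_succ (E : Sm (2 - h) (p ^ h)) (F : ℕ →₀ ℕ) (j : ℕ) :
    db p (E, F + Finsupp.single j 1) = db p (E, F) + sV p (j + 2 + 1) := by
  rw [db, db, map_add, Finsupp.weight_single, one_smul, ← add_assoc]

theorem HG_monomial (E : ℕ →₀ ℕ) : HG p (dT p E) (monomial E 1) := by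
  classical
  intro E'
  rw [coeff_monomial]
  split_ifs with hE
  · rw [hE, sub_self]
    exact isWeightedHomogeneous_one _ _
  · exact isWeightedHomogeneous_zero _ _ _

theorem b0_HG (x : Ix p h) : HG p (db p x) (b0 p x) := by
  refine (HG_monomial p _).mul ?_
  rw [Finsupp.weight_apply]
  exact HG.prod _ _ _ fun j _ => by
    have := (eta0_HG p (j + 2)).pow (x.2 j)
    rwa [← nsmul_eq_mul] at this

variable (h) (M : Type*) [AddCommGroup M] [Module (K0 p) M]

/-- `(m_x) ↦ ∑ b0 x ⊗ m_x`, in the coordinates of the monomials -/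
def colM : (Ix p h →₀ M) →ₗ[K0 p] ((ℕ →₀ ℕ) →₀ M) :=
  Finsupp.lsum (K0 p) fun x =>
    { toFun := fun m => Finsupp.onFinset (b0 p x).support (fun E => coeff E (b0 p x) • m)
        fun E hE => mem_support_iff.2 fun h0 => hE (by rw [h0, zero_smul])
      map_add' := fun m m' => Finsupp.ext fun E => smul_add _ _ _
      map_smul' := fun c m => Finsupp.ext fun E => smul_comm _ _ _ }

variable {p h M}

theorem colM_single (x : Ix p h) (m : M) (E : ℕ →₀ ℕ) :
    colM p h M (Finsupp.single x m) E = coeff E (b0 p x) • m := by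
  rw [colM, Finsupp.lsum_single]
  rfl

theorem colM_apply (y : Ix p h →₀ M) (E : ℕ →₀ ℕ) :
    colM p h M y E = y.sum fun x m => coeff E (b0 p x) • m := by
  conv_lhs => rw [← y.sum_single, map_finsuppSum, Finsupp.sum_apply]
  exact Finsupp.sum_congr fun x _ => colM_single x _ E

theorem colM_map {M' : Type*} [AddCommGroup M'] [Module (K0 p) M'] (f : M →ₗ[K0 p] M')
    (y : Ix p h →₀ M) : colM p h M' (Finsupp.mapRange.linearMap f y) =
      Finsupp.mapRange.linearMap f (colM p h M y) := by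
  induction y using Finsupp.induction_linear with
  | zero => simp
  | add y y' hy hy' => simp only [map_add, hy, hy']
  | single x m =>
    ext E
    rw [Finsupp.mapRange.linearMap_apply, Finsupp.mapRange_single, colM_single,
      Finsupp.mapRange.linearMap_apply, Finsupp.mapRange_apply, colM_single, map_smul]

/-- **ALG0 for modules** -/
theorem alg0_mod (h2 : h ≤ 2) (h0 : ∀ i < h, ∀ m : M, vv0 p i • m = 0)
    (hv : Function.Bijective fun m : M => vv0 p h • m) : Function.Bijective (colM p h M) := by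
  classical
  let A := Subalgebra.center (K0 p) (Module.End (K0 p) M)
  have hθ : ∀ (c : K0 p) (m : M), algebraMap (K0 p) A c • m = c • m := fun c m => rfl
  have hu : IsUnit (algebraMap (K0 p) A (vv0 p h)) := by
    obtain ⟨u, hu⟩ := (Module.End.isUnit_iff
      (algebraMap (K0 p) (Module.End (K0 p) M) (vv0 p h))).2 hv
    have hc : ∀ b : Module.End (K0 p) M, b * ↑u⁻¹ = ↑u⁻¹ * b := fun b =>
      (Commute.units_inv_right (u := u) (by rw [hu]; exact (Algebra.commutes _ _).symm)).eq
    exact IsUnit.of_mul_eq_one ⟨↑u⁻¹, Subalgebra.mem_center_iff.2 hc⟩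
      (Subtype.ext (by change algebraMap (K0 p) (Module.End (K0 p) M) _ * _ = 1; rw [← hu]; simp))
  obtain ⟨bb, hbb⟩ := alg0 (algebraMap (K0 p) A) h2
    (fun i hi => Subtype.ext (LinearMap.ext (h0 i hi))) hu
  have hb : ∀ x, bb x = map (algebraMap (K0 p) A) (b0 p x) := fun x => by
    rw [hbb, b0, map_mul, map_monomial, RingHom.map_one, map_finsuppProd]
    simp only [map_pow]
  let e : (Ix p h →₀ M) ≃ₗ[A] ((ℕ →₀ ℕ) →₀ M) :=
    (TensorProduct.finsuppScalarLeft A M _).symm ≪≫ₗ
      (bb.repr.symm ≪≫ₗ (basisMonomials ℕ A).repr).rTensor M ≪≫ₗ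
        TensorProduct.finsuppScalarLeft A M _
  have he : ∀ y, colM p h M y = e y := fun y => by
    induction y using Finsupp.induction_linear with
    | zero => simp
    | add y y' hy hy' => simp only [map_add, hy, hy']
    | single x m =>
      ext E
      rw [colM_single, ← hθ, ← coeff_map, ← hb]
      simp only [e, LinearEquiv.trans_apply, TensorProduct.finsuppScalarLeft_symm_apply_single,
        LinearEquiv.rTensor_tmul, TensorProduct.finsuppScalarLeft_apply_tmul_apply,
        Module.Basis.repr_symm_single_one]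
      rfl
  rw [show ⇑(colM p h M) = e from funext he]
  exact e.bijective

theorem exists_pow {ι : Type*} (c : K0 p) (y : ι →₀ M) (hy : ∀ i, ∃ n : ℕ, c ^ n • y i = 0) :
    ∃ n : ℕ, c ^ n • y = 0 := by
  choose n hn using hy
  refine ⟨y.support.sup n, Finsupp.ext fun i => ?_⟩
  by_cases hi : i ∈ y.support
  · obtain ⟨k, hk⟩ := Nat.exists_eq_add_of_le' (Finset.le_sup (f := n) hi)
    rw [Finsupp.smul_apply, hk, pow_add, mul_smul, hn, smul_zero, Finsupp.zero_apply]
  · rw [Finsupp.smul_apply, Finsupp.notMem_support_iff.1 hi, smul_zero, Finsupp.zero_apply]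

/-- **ALG0 for modules, up to `v_h`-power torsion** -/
theorem alg0_tors (h2 : h ≤ 2) (h0 : ∀ i < h, ∀ m : M, vv0 p i • m = 0) :
    (∀ y, colM p h M y = 0 → ∃ n : ℕ, vv0 p h ^ n • y = 0) ∧
      ∀ z, ∃ (n : ℕ) (y : Ix p h →₀ M), colM p h M y = vv0 p h ^ n • z := by
  let S := Submonoid.powers (vv0 p h)
  let f := LocalizedModule.mkLinearMap S M
  have hb : Function.Bijective (colM p h (LocalizedModule S M)) := by
    refine alg0_mod h2 (fun i hi m => ?_) ((Module.End.isUnit_iff _).1
      (IsLocalizedModule.map_units (S := S) f ⟨_, Submonoid.mem_powers _⟩))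
    induction m using LocalizedModule.induction_on with
    | h m s => rw [LocalizedModule.smul'_mk, h0 i hi, LocalizedModule.zero_mk]
  have hk : ∀ {ι : Type} (y : ι →₀ M), Finsupp.mapRange.linearMap f y = 0 →
      ∃ n : ℕ, vv0 p h ^ n • y = 0 := fun y hy => exists_pow _ y fun i => by
    obtain ⟨⟨_, n, rfl⟩, hs⟩ := (IsLocalizedModule.eq_zero_iff S f).1 (DFunLike.congr_fun hy i)
    exact ⟨n, hs⟩
  refine ⟨fun y hy => hk y (hb.1 (by rw [colM_map, hy, map_zero, map_zero])), fun z => ?_⟩
  obtain ⟨y', hy'⟩ := hb.2 (Finsupp.mapRange.linearMap f z)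
  have hs : ∃ (n : ℕ) (y : Ix p h →₀ M), Finsupp.mapRange.linearMap f y = vv0 p h ^ n • y' := by
    clear hy'
    induction y' using Finsupp.induction_linear with
    | zero => exact ⟨0, 0, by simp⟩
    | add a b ha hb =>
      obtain ⟨n, a', ha⟩ := ha
      obtain ⟨m, b', hb⟩ := hb
      refine ⟨n + m, vv0 p h ^ m • a' + vv0 p h ^ n • b', ?_⟩
      rw [map_add, map_smul, map_smul, ha, hb, smul_smul, smul_smul, ← pow_add, ← pow_add,
        add_comm m n, smul_add]
    | single x m =>
      obtain ⟨⟨m', _, n, rfl⟩, hs⟩ := IsLocalizedModule.surj S f m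
      refine ⟨n, Finsupp.single x m', ?_⟩
      rw [Finsupp.mapRange.linearMap_apply, Finsupp.mapRange_single, Finsupp.smul_single, ← hs]
      rfl
  obtain ⟨n, y, hy⟩ := hs
  obtain ⟨m, hm⟩ := hk (colM p h M y - vv0 p h ^ n • z) (by
    rw [map_sub, ← colM_map, hy, map_smul, map_smul, hy', sub_self])
  refine ⟨m + n, vv0 p h ^ m • y, ?_⟩
  rwa [smul_sub, sub_eq_zero, smul_smul, ← pow_add, ← map_smul] at hm

end Vale.Agent.P221X.EXI.Alg
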