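import Mathlib.RingTheory.MvPolynomial.MonomialOrder
import Mathlib.Data.Finsupp.WellFounded
import Mathlib.Algebra.MvPolynomial.Supported
import Mathlib.RingTheory.MvPolynomial.Basic

/-!
# P221X, block EXIST, row ALG: triangular bases of polynomial rings

If `ρ j` has leading term a unit times `X (s + j) ^ d` for the colexicographic order, then the
products of small monomials with monomials in the `ρ j` form a basis.
-/

open MvPolynomial

noncomputable section

namespace Vale.Agent.P221X.EXI.Alg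

variable {A : Type*} [CommRing A]

/-- the colexicographic order: the variable with the largest index decides -/
def cx : MonomialOrder ℕ where
  syn := Colex (ℕ →₀ ℕ)
  toSyn := { toEquiv := toColex, map_add' := fun _ _ => rfl }
  toSyn_monotone := Finsupp.toColex_monotone

theorem cx_lt {a b : ℕ →₀ ℕ} (i : ℕ) (h : ∀ j, i < j → a j = b j) (hi : a i < b i) :
    cx.toSyn a < cx.toSyn b := ⟨i, h, hi⟩

/-- `f` has the leading term a unit times `X ^ D` -/
def Ld (D : ℕ →₀ ℕ) (f : MvPolynomial ℕ A) : Prop :=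
  cx.toSyn (cx.degree f) ≤ cx.toSyn D ∧ IsUnit (coeff D f)

theorem Ld.mul {D D' : ℕ →₀ ℕ} {f g : MvPolynomial ℕ A} (hf : Ld D f) (hg : Ld D' g) :
    Ld (D + D') (f * g) :=
  ⟨(cx.degree_mul_le (f := f) (g := g)).trans (by
      rw [map_add, map_add]; exact add_le_add hf.1 hg.1),
    by rw [cx.coeff_mul_of_add_of_degree_le hf.1 hg.1]; exact hf.2.mul hg.2⟩

theorem Ld.mono (D : ℕ →₀ ℕ) {c : A} (hc : IsUnit c) : Ld D (monomial D c) :=
  ⟨cx.degree_monomial_le c, by simpa using hc⟩

theorem Ld.pow {D : ℕ →₀ ℕ} {f : MvPolynomial ℕ A} (hf : Ld D f) (n : ℕ) : Ld (n • D) (f ^ n) := by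
  induction n with
  | zero => simpa using Ld.mono 0 (isUnit_one (M := A))
  | succ n ih => rw [pow_succ, succ_nsmul]; exact ih.mul hf

theorem Ld.prod {ι : Type*} (s : Finset ι) {D : ι → ℕ →₀ ℕ} {f : ι → MvPolynomial ℕ A}
    (h : ∀ i, Ld (D i) (f i)) : Ld (∑ i ∈ s, D i) (∏ i ∈ s, f i) := by
  classical
  induction s using Finset.induction_on with
  | empty => simpa using Ld.mono 0 (isUnit_one (M := A))
  | insert a s ha ih => rw [Finset.sum_insert ha, Finset.prod_insert ha]; exact (h a).mul ih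

theorem Ld.add {D : ℕ →₀ ℕ} {f g : MvPolynomial ℕ A} (hf : Ld D f)
    (hg : ∀ E ∈ g.support, cx.toSyn E < cx.toSyn D) : Ld D (f + g) := by
  have h0 : coeff D g = 0 := notMem_support_iff.1 fun h => (hg D h).false
  exact ⟨cx.degree_add_le.trans (sup_le hf.1 (cx.degree_le_iff.2 fun E hE => (hg E hE).le)),
    by rw [coeff_add, h0, add_zero]; exact hf.2⟩

theorem Ld.coeff_zero {D E : ℕ →₀ ℕ} {f : MvPolynomial ℕ A} (hf : Ld D f)
    (h : cx.toSyn D < cx.toSyn E) : coeff E f = 0 := cx.coeff_eq_zero_of_lt (hf.1.trans_lt h)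

theorem supp_lt {i : ℕ} {g : MvPolynomial ℕ A} (hg : g ∈ supported A (Set.Iio i)) {d : ℕ}
    (hd : 0 < d) : ∀ E ∈ g.support, cx.toSyn E < cx.toSyn (Finsupp.single i d) := by
  intro E hE
  have h : ∀ j, i ≤ j → E j = 0 := fun j hj => by
    by_contra h0
    exact (mem_supported.1 hg ((mem_vars_iff_mem_support j).2
      ⟨E, hE, Finsupp.mem_support_iff.2 h0⟩)).not_ge hj
  refine cx_lt i (fun j hj => ?_) (by rw [h i le_rfl]; simpa using hd)
  rw [h j hj.le, Finsupp.single_eq_of_ne hj.ne']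

/-- a triangular family is a basis -/
theorem exists_basis {ι : Type*} (e : ι ≃ (ℕ →₀ ℕ)) (b : ι → MvPolynomial ℕ A)
    (h : ∀ i, Ld (e i) (b i)) : ∃ bb : Module.Basis ι A (MvPolynomial ℕ A), ∀ i, bb i = b i := by
  classical
  refine ⟨Module.Basis.mk (v := b) ?_ ?_, fun i => Module.Basis.mk_apply _ _ i⟩
  · rw [linearIndependent_iff']
    intro s
    induction s using Finset.induction_on_max_value fun i => cx.toSyn (e i) with
    | empty => simp
    | insert a s ha hm ih =>
      intro g hg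
      have h1 : g a = 0 := by
        have h2 := congrArg (coeff (e a)) hg
        rw [Finset.sum_insert ha, coeff_add, coeff_sum, Finset.sum_eq_zero, add_zero, coeff_smul,
          coeff_zero, smul_eq_mul] at h2
        · exact (h a).2.mul_left_eq_zero.1 h2
        · intro x hx
          rw [coeff_smul, (h x).coeff_zero (lt_of_le_of_ne (hm x hx) fun h3 => ha
            (e.injective (cx.toSyn.injective h3) ▸ hx)), smul_zero]
      rw [Finset.sum_insert ha, h1, zero_smul, zero_add] at hg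
      intro i hi
      rcases Finset.mem_insert.1 hi with rfl | hi
      exacts [h1, ih g hg i hi]
  · have key : ∀ (x : cx.syn) (f : MvPolynomial ℕ A), (∀ E ∈ f.support, cx.toSyn E ≤ x) →
        f ∈ Submodule.span A (Set.range b) := by
      intro x
      induction x using WellFoundedLT.induction with
      | ind x ih =>
        intro f hf
        obtain ⟨D, rfl⟩ := cx.toSyn.surjective x
        obtain ⟨i, rfl⟩ := e.surjective D
        obtain ⟨u, hu⟩ := (h i).2
        have h1 : f - (coeff (e i) f * ↑u⁻¹) • b i ∈ Submodule.span A (Set.range b) := by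
          set g := f - (coeff (e i) f * ↑u⁻¹) • b i with hg
          by_cases h0 : g = 0
          · rw [h0]; exact zero_mem _
          refine ih _ (lt_of_not_ge fun h2 => ?_) g fun E hE => cx.le_degree hE
          refine cx.coeff_degree_ne_zero_iff.2 h0 ?_
          rcases h2.eq_or_lt with h2 | h2
          · rw [← cx.toSyn.injective h2, hg, coeff_sub, coeff_smul, ← hu]; simp
          · conv_lhs => rw [hg, coeff_sub, coeff_smul, (h i).coeff_zero h2,
              notMem_support_iff.1 fun h3 => (hf _ h3).not_gt h2]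
            simp
        simpa using add_mem h1 (Submodule.smul_mem _ (coeff (e i) f * ↑u⁻¹)
          (Submodule.subset_span ⟨i, rfl⟩))
    exact fun f _ => key _ f fun E hE => cx.le_degree hE

/-- small exponents -/
def Sm (s d : ℕ) : Type := {E : ℕ →₀ ℕ // ∀ i, s ≤ i → E i < d}

/-- the leading exponent -/
def ld (s d : ℕ) (x : Sm s d × (ℕ →₀ ℕ)) : ℕ →₀ ℕ :=
  x.1.1 + ∑ j ∈ x.2.support, x.2 j • Finsupp.single (s + j) d

theorem ld_lt {s d : ℕ} (x : Sm s d × (ℕ →₀ ℕ)) {i : ℕ} (h : i < s) : ld s d x i = x.1.1 i := by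
  rw [ld, Finsupp.add_apply, Finset.sum_apply', Finset.sum_eq_zero, add_zero]
  intro j _
  rw [Finsupp.smul_apply, Finsupp.single_eq_of_ne (by omega), smul_zero]

theorem ld_add {s d : ℕ} (x : Sm s d × (ℕ →₀ ℕ)) (j : ℕ) :
    ld s d x (s + j) = x.1.1 (s + j) + d * x.2 j := by
  rw [ld, Finsupp.add_apply, Finset.sum_apply', Finset.sum_eq_single j]
  · simp [mul_comm]
  · intro l _ hl
    rw [Finsupp.smul_apply, Finsupp.single_eq_of_ne (by omega), smul_zero]
  · intro h
    rw [Finsupp.notMem_support_iff.1 h, zero_smul, Finsupp.zero_apply]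

theorem ld_bij (s : ℕ) {d : ℕ} (hd : 0 < d) : Function.Bijective (ld s d) := by
  constructor
  · intro x y h
    have key : ∀ j, x.1.1 (s + j) = y.1.1 (s + j) ∧ x.2 j = y.2 j := fun j => by
      have h1 := ld_add x j
      rw [h, ld_add] at h1
      have h2 := congrArg (· % d) h1
      have h3 := congrArg (· / d) h1
      simp only [Nat.add_mul_mod_self_left, Nat.mod_eq_of_lt (x.1.2 _ (Nat.le_add_right s j)),
        Nat.mod_eq_of_lt (y.1.2 _ (Nat.le_add_right s j)), Nat.add_mul_div_left _ _ hd,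
        Nat.div_eq_of_lt (x.1.2 _ (Nat.le_add_right s j)),
        Nat.div_eq_of_lt (y.1.2 _ (Nat.le_add_right s j)), zero_add] at h2 h3
      exact ⟨h2.symm, h3.symm⟩
    refine Prod.ext (Subtype.ext (Finsupp.ext fun i => ?_)) (Finsupp.ext fun j => (key j).2)
    rcases lt_or_ge i s with hi | hi
    · rw [← ld_lt x hi, h, ld_lt y hi]
    · obtain ⟨j, rfl⟩ := Nat.exists_eq_add_of_le hi
      exact (key j).1
  · intro D
    refine ⟨(⟨Finsupp.onFinset D.support (fun i => if s ≤ i then D i % d else D i) fun i hi => ?_,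
      fun i hi => ?_⟩, Finsupp.onFinset (D.support.image (· - s)) (fun j => D (s + j) / d)
        fun j hj => ?_), Finsupp.ext fun i => ?_⟩
    · refine Finsupp.mem_support_iff.2 fun h => hi ?_
      simp [h]
    · simpa [hi] using Nat.mod_lt _ hd
    · refine Finset.mem_image.2 ⟨s + j, Finsupp.mem_support_iff.2 fun h => hj ?_, by simp⟩
      simp [h]
    · rcases lt_or_ge i s with hi | hi
      · rw [ld_lt _ hi]; simp [hi.not_ge]
      · obtain ⟨j, rfl⟩ := Nat.exists_eq_add_of_le hi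
        rw [ld_add]; simp [Nat.mod_add_div]

/-- **the basis of small monomials times monomials in the `ρ j`** -/
theorem exists_basis_sm (s : ℕ) {d : ℕ} (hd : 0 < d) (ρ : ℕ → MvPolynomial ℕ A)
    (h : ∀ j, Ld (Finsupp.single (s + j) d) (ρ j)) :
    ∃ bb : Module.Basis (Sm s d × (ℕ →₀ ℕ)) A (MvPolynomial ℕ A),
      ∀ x, bb x = monomial x.1.1 1 * x.2.prod fun j n => ρ j ^ n :=
  exists_basis (Equiv.ofBijective _ (ld_bij s hd)) _ fun x =>
    (Ld.mono x.1.1 isUnit_one).mul (Ld.prod _ fun j => (h j).pow _)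

/-! ### the dual statements -/

variable {M : Type*} [AddCommGroup M] [Module A M] {ι : Type*}
  {bb : Module.Basis (ι × (ℕ →₀ ℕ)) A (MvPolynomial ℕ A)} {ρ : ℕ → MvPolynomial ℕ A}

theorem van_iff (hb : ∀ j E F, ρ j * bb (E, F) = bb (E, F + Finsupp.single j 1)) (m : ℕ)
    (x : MvPolynomial ℕ A →ₗ[A] M) : (∀ j < m, ∀ g, x (ρ j * g) = 0) ↔
      ∀ E F, (∃ j < m, F j ≠ 0) → x (bb (E, F)) = 0 := by
  constructor
  · rintro h E F ⟨j, hj, h0⟩
    have e : F = F - Finsupp.single j 1 + Finsupp.single j 1 :=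
      (tsub_add_cancel_of_le (Finsupp.single_le_iff.2 (Nat.pos_of_ne_zero h0))).symm
    rw [e, ← hb]; exact h j hj _
  · intro h j hj g
    have : x ∘ₗ LinearMap.mulLeft A (ρ j) = 0 := bb.ext fun ⟨E, F⟩ => by
      rw [LinearMap.comp_apply, LinearMap.mulLeft_apply, hb]
      exact h _ _ ⟨j, hj, by simp⟩
    exact LinearMap.congr_fun this g

theorem dual1 (hb : ∀ j E F, ρ j * bb (E, F) = bb (E, F + Finsupp.single j 1)) (m : ℕ)
    (y : MvPolynomial ℕ A →ₗ[A] M) (hy : ∀ j < m, ∀ g, y (ρ j * g) = 0) :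
    ∃ x : MvPolynomial ℕ A →ₗ[A] M, (∀ j < m, ∀ g, x (ρ j * g) = 0) ∧ ∀ g, x (ρ m * g) = y g := by
  refine ⟨bb.constr A fun z => y (bb (z.1, z.2 - Finsupp.single m 1)), (van_iff hb m _).2 ?_,
    fun g => ?_⟩
  · rintro E F ⟨j, hj, h0⟩
    rw [Module.Basis.constr_basis]
    refine (van_iff hb m y).1 hy _ _ ⟨j, hj, ?_⟩
    rwa [Finsupp.tsub_apply, Finsupp.single_eq_of_ne hj.ne, Nat.sub_zero]
  · have : (bb.constr A fun z => y (bb (z.1, z.2 - Finsupp.single m 1))) ∘ₗ
        LinearMap.mulLeft A (ρ m) = y := bb.ext fun ⟨E, F⟩ => by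
      rw [LinearMap.comp_apply, LinearMap.mulLeft_apply, hb, Module.Basis.constr_basis,
        add_tsub_cancel_right]
    exact LinearMap.congr_fun this g

theorem dual2 (hb : ∀ j E F, ρ j * bb (E, F) = bb (E, F + Finsupp.single j 1))
    (y : ℕ → MvPolynomial ℕ A →ₗ[A] M) (hy : ∀ m, ∀ j < m, ∀ g, y m (ρ j * g) = 0) :
    ∃ x : ℕ → MvPolynomial ℕ A →ₗ[A] M, (∀ m, ∀ j < m, ∀ g, x m (ρ j * g) = 0) ∧
      ∀ m, x m - x (m + 1) = y m := by
  refine ⟨fun m => (bb.constr A fun z => ∑ j ∈ Finset.range (z.2.support.sup id + 1), y j (bb z)) -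
    ∑ j ∈ Finset.range m, y j, fun m => (van_iff hb m _).2 ?_, fun m => ?_⟩
  · rintro E F ⟨j, hj, h0⟩
    have key : ∀ n, j < n → ∑ l ∈ Finset.range n, y l (bb (E, F)) =
        ∑ l ∈ Finset.range (j + 1), y l (bb (E, F)) := fun n hn =>
      (Finset.sum_subset (Finset.range_mono hn) fun l _ hl =>
        (van_iff hb l _).1 (hy l) _ _ ⟨j, by simpa using hl, h0⟩).symm
    rw [LinearMap.sub_apply, Module.Basis.constr_basis, LinearMap.sum_apply, key m hj, key _
      (Nat.lt_succ_of_le (Finset.le_sup (f := id) (Finsupp.mem_support_iff.2 h0))), sub_self]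
  · dsimp only
    rw [Finset.sum_range_succ]; abel

end Vale.Agent.P221X.EXI.Alg
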