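import Vale.Agent.P221.T.H520.EtaR
import Vale.Agent.P221X.EXI.AlgT
import Mathlib.RingTheory.MvPowerSeries.Expand
import Mathlib.RingTheory.PowerSeries.Expand

/-!
# P221X, block EXIST, row ALG: the right unit modulo `I_h`

Modulo `I_h`, with `v_h` invertible, `η v_{h+i+1}` is a unit times `t_{i+1} ^ (p ^ h)` plus smaller
terms for the colexicographic order.
-/

open MvPolynomial

noncomputable section

namespace Vale.Agent.P221X.EXI.Alg

open Vale.Agent.P217 Vale.Agent.P251.F Vale.Agent.P257.H80 Vale.Agent.P221.H246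
  Vale.Agent.P221.T Vale.Agent.P221.T.H520

/-! ### coefficients of a substitution, modulo a subring -/

section ser

variable {B : Type*} [CommRing B] (T : Subring B)

theorem coeff_pow_mem {u : PowerSeries B} {k : ℕ} (h : ∀ m ≤ k, PowerSeries.coeff m u ∈ T) (n : ℕ) :
    ∀ m ≤ k, PowerSeries.coeff m (u ^ n) ∈ T := by
  induction n with
  | zero =>
    intro m _
    rw [pow_zero, PowerSeries.coeff_one]
    split_ifs
    exacts [T.one_mem, T.zero_mem]
  | succ n ih =>
    intro m hm
    rw [pow_succ, PowerSeries.coeff_mul]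
    refine T.sum_mem fun x hx => ?_
    have := Finset.HasAntidiagonal.mem_antidiagonal.1 hx
    exact T.mul_mem (ih _ (by omega)) (h _ (by omega))

theorem coeff_subst_mem {a f : PowerSeries B} (ha : PowerSeries.constantCoeff a = 0) {N : ℕ}
    (hN : 2 ≤ N) (h1 : ∀ n < N, PowerSeries.coeff n f ∈ T)
    (h2 : ∀ n < N, PowerSeries.coeff n a ∈ T) :
    PowerSeries.coeff N (PowerSeries.subst a f : PowerSeries B) -
      (PowerSeries.coeff 1 f * PowerSeries.coeff N a +
        PowerSeries.coeff N f * PowerSeries.coeff 1 a ^ N) ∈ T := by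
  have hs := hasSubst_of_cc ha
  obtain ⟨u, rfl⟩ := PowerSeries.X_dvd_iff.2 ha
  have key : ∀ d, PowerSeries.coeff N ((PowerSeries.X * u) ^ d) =
      if d ≤ N then PowerSeries.coeff (N - d) (u ^ d) else 0 := fun d => by
    rw [mul_pow, PowerSeries.coeff_X_pow_mul']
  have hu : ∀ m ≤ N - 2, PowerSeries.coeff m u ∈ T := fun m hm => by
    have := h2 (m + 1) (by omega)
    rwa [PowerSeries.coeff_succ_X_mul] at this
  rw [PowerSeries.coeff_subst' hs, finsum_eq_sum_of_support_subset (s := Finset.range (N + 1)) _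
    fun d hd => by
      by_contra h
      refine hd ?_
      dsimp only
      rw [key, if_neg (by simpa using h), smul_zero]]
  obtain ⟨n, rfl⟩ : ∃ n, N = n + 2 := ⟨N - 2, by omega⟩
  rw [Finset.sum_range_succ, Finset.sum_range_succ', Finset.sum_range_succ']
  have e1 : PowerSeries.coeff (n + 2) ((PowerSeries.X * u) ^ (n + 2)) =
      PowerSeries.coeff 1 (PowerSeries.X * u) ^ (n + 2) := by
    rw [key, if_pos le_rfl, Nat.sub_self, PowerSeries.coeff_succ_X_mul]
    simp
  have e2 : PowerSeries.coeff (n + 2) ((PowerSeries.X * u) ^ 0) = 0 := by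
    rw [pow_zero, PowerSeries.coeff_one, if_neg (by omega)]
  rw [e1, e2, zero_add, pow_one, smul_zero, add_zero, smul_eq_mul, smul_eq_mul, add_assoc,
    add_sub_cancel_right]
  refine T.sum_mem fun d hd => ?_
  have := Finset.mem_range.1 hd
  rw [key, if_pos (by omega), smul_eq_mul]
  exact T.mul_mem (h1 _ (by omega)) (coeff_pow_mem T hu _ _ (by omega))

variable {p : ℕ} [hp : Fact p.Prime]

/-- the relation between the `p`-series, in the variable `x ^ (p ^ h)` -/
theorem exists_rel (h : ℕ) (F : Law B) (g : InvSeries B) (hF : ∀ i < h, vv p i F = 0) :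
    ∃ V V' g' : PowerSeries B, PowerSeries.constantCoeff V = 0 ∧
      PowerSeries.constantCoeff g' = 0 ∧
      (∀ n, PowerSeries.coeff n V = PowerSeries.coeff (p ^ h * n) (multSeries F.toFG p)) ∧
      (∀ n, PowerSeries.coeff n V' = PowerSeries.coeff (p ^ h * n) (multSeries (g • F).toFG p)) ∧
      (∀ n, PowerSeries.coeff n g' = PowerSeries.coeff n g.val ^ p ^ h) ∧
      (PowerSeries.subst V g.val : PowerSeries B) = PowerSeries.subst g' V' := by
  rcases Nat.eq_zero_or_pos h with rfl | hpos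
  · exact ⟨_, _, g.val, (isHom_multSeries F.toFG p).1, g.cc, by simp, by simp, by simp,
      smul_multSeries g F p⟩
  rcases subsingleton_or_nontrivial B with hB | hB
  · exact ⟨0, 0, 0, by simp, by simp, fun _ => Subsingleton.elim _ _,
      fun _ => Subsingleton.elim _ _, fun _ => Subsingleton.elim _ _, Subsingleton.elim _ _⟩
  have hp0 : (p : B) = 0 := by rw [← vv_zero p F]; exact hF 0 hpos
  have hchar : CharP B p := (CharP.charP_iff_prime_eq_zero hp.out).2 hp0
  have : ExpChar B p := ExpChar.prime hp.out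
  have hq : p ^ h ≠ 0 := pow_ne_zero h hp.out.ne_zero
  have hX : PowerSeries.HasSubst (PowerSeries.X ^ p ^ h : PowerSeries B) := .X_pow hq
  obtain ⟨V, hV, hV0, -⟩ := exists_height' p (isHom_multSeries F.toFG p) h hF
  obtain ⟨V', hV', -⟩ := exists_height' p (isHom_multSeries (g • F).toFG p) h
    (vv_smul_of_zero p h F g hF).1
  have co : ∀ (W : PowerSeries B) (n : ℕ), PowerSeries.coeff (p ^ h * n)
      (PowerSeries.subst (PowerSeries.X ^ p ^ h : PowerSeries B) W : PowerSeries B) =
      PowerSeries.coeff n W := fun W n => by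
    rw [PowerSeries.coeff_subst_X_pow hq, if_pos (dvd_mul_right _ _),
      Nat.mul_div_cancel_left _ (Nat.pos_of_ne_zero hq)]
    rfl
  have g0 : PowerSeries.constantCoeff (PowerSeries.map (iterateFrobenius B p h) g.val) = 0 := by
    rw [← PowerSeries.coeff_zero_eq_constantCoeff_apply, PowerSeries.coeff_map,
      PowerSeries.coeff_zero_eq_constantCoeff_apply, g.cc, map_zero]
  refine ⟨V, V', PowerSeries.map (iterateFrobenius B p h) g.val, hV0, g0,
    fun n => by rw [hV, co], fun n => by rw [hV', co],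
    fun n => by rw [PowerSeries.coeff_map, iterateFrobenius_def], ?_⟩
  have e : g.val ^ p ^ h = PowerSeries.subst (PowerSeries.X ^ p ^ h : PowerSeries B)
      (PowerSeries.map (iterateFrobenius B p h) g.val) := by
    rw [← PowerSeries.expand_apply _ hq, ← PowerSeries.map_expand]
    exact (MvPowerSeries.map_iterateFrobenius_expand p hp.out.ne_zero g.val h).symm
  have key := smul_multSeries g F p
  rw [hV, hV', ← PowerSeries.subst_comp_subst_apply (hasSubst_of_cc hV0) hX,
    PowerSeries.subst_comp_subst_apply hX g.hs, PowerSeries.subst_pow g.hs,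
    PowerSeries.subst_X g.hs, e, ← PowerSeries.subst_comp_subst_apply (hasSubst_of_cc g0) hX] at key
  ext n
  rw [← co, key, co]

end ser

/-! ### weights -/

variable (p : ℕ) [hp : Fact p.Prime]

theorem wv_pos (j : ℕ) : 0 < wv p j :=
  Nat.sub_pos_of_lt (Nat.one_lt_pow (Nat.succ_ne_zero j) hp.out.one_lt)

theorem wv_mono {i j : ℕ} (h : i ≤ j) : wv p i ≤ wv p j :=
  Nat.sub_le_sub_right (Nat.pow_le_pow_right hp.out.pos (by omega)) 1

theorem mem_sup {R : Type*} [CommRing R] {f : MvPolynomial ℕ R} {k : ℕ}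
    (h : ∀ E ∈ f.support, ∀ j, k ≤ j → E j = 0) : f ∈ supported R (Set.Iio k) :=
  mem_supported.2 fun j hj => by
    obtain ⟨E, hE, h0⟩ := (mem_vars_iff_mem_support j).1 hj
    exact not_le.1 fun h1 => Finsupp.mem_support_iff.1 h0 (h E hE j h1)

theorem wt_mult (n : ℕ) :
    (PowerSeries.coeff (n + 1) (multSeries (haz p).toFG p)).IsWeightedHomogeneous (wv p) n := by
  refine isWeightedHomogeneous_of_scale ?_
  rw [← PowerSeries.coeff_map, map_multSeries]
  change PowerSeries.coeff _ (multSeries ((haz p).map _).toFG p) = _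
  rw [haz_scaleHom, coeff_multSeries_lin_inv_smul, Law.map_toFG, ← map_multSeries,
    PowerSeries.coeff_map]
  change (LaurentPolynomial.T 1) ^ _ * _ = _
  rw [LaurentPolynomial.T_pow, mul_one, mul_comm]

theorem mult_mem {n k : ℕ} (h : n < p ^ (k + 1)) :
    PowerSeries.coeff n (multSeries (haz p).toFG p) ∈ supported ℤ (Set.Iio k) := by
  rcases n with _ | n
  · rw [PowerSeries.coeff_zero_eq_constantCoeff_apply, (isHom_multSeries (haz p).toFG p).1]
    exact zero_mem _
  refine mem_sup fun E hE j hj => by_contra fun h0 => ?_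
  have h1 := Finsupp.le_weight (wv p) (wv_pos p j).ne' E
  have h2 := Finsupp.le_weight_of_ne_zero' (wv p) h0
  rw [wt_mult p n (mem_support_iff.1 hE)] at h2
  have h3 := wv_mono p hj
  unfold wv at h2 h3
  omega

theorem vv_lin (k : ℕ) : ∃ c : ℤ, ¬ (p : ℤ) ∣ c ∧
    vv p (k + 1) (haz p) - C c * X k ∈ supported ℤ (Set.Iio k) := by
  classical
  set f := vv p (k + 1) (haz p) with hf
  have hq : f - C (coeff (Finsupp.single k 1) f) * X k ∈ supported ℤ (Set.Iio k) := by
    refine mem_sup fun E hE j hj => by_contra fun h0 => mem_support_iff.1 hE ?_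
    rw [coeff_sub, coeff_C_mul, coeff_X]
    split_ifs with h1
    · rw [← h1]; simp
    · rw [mul_zero, sub_zero]
      by_contra h2
      have h3 := wt_vv_haz p k h2
      have e : E = E - Finsupp.single j 1 + Finsupp.single j 1 :=
        (tsub_add_cancel_of_le (Finsupp.single_le_iff.2 (Nat.pos_of_ne_zero h0))).symm
      rw [e, map_add, Finsupp.weight_single, one_smul] at h3
      have h4 := wv_mono p hj
      have h5 : Finsupp.weight (wv p) (E - Finsupp.single j 1) = 0 := by unfold wv at h3 h4 ⊢; omega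
      have h6 : E - Finsupp.single j 1 = 0 := Finsupp.ext fun l => by
        have := Finsupp.le_weight (wv p) (wv_pos p l).ne' (E - Finsupp.single j 1)
        rw [h5] at this
        exact Nat.le_zero.1 this
      have h7 : j = k := by
        rw [h5, zero_add] at h3
        have h8 := Nat.one_le_pow (j + 1) p hp.out.pos
        have h9 := Nat.one_le_pow (k + 1) p hp.out.pos
        have := Nat.pow_right_injective hp.out.two_le
          (show p ^ (j + 1) = p ^ (k + 1) by unfold wv at h3; omega)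
        omega
      exact h1 (by rw [e, h6, zero_add, h7])
  refine ⟨_, fun hd => ?_, hq⟩
  let φ : MvPolynomial ℕ ℤ →+* ZMod p := eval₂Hom (Int.castRingHom _) fun j => if j = k then 1 else 0
  have h1 : φ f = 1 := by
    rw [hf, ← vv_map, vv_haz_of_zero p (by simp) fun j hj => by simp [φ, hj.ne]]
    simp [φ]
  have h2 : spZ (ZMod p) f = 0 := by
    rw [hf, ← vv_map, vv_haz_of_zero p (by simp) fun j _ => by simp [spZ]]
    simp [spZ]
  have h3 : φ (f - C (coeff (Finsupp.single k 1) f) * X k) =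
      spZ (ZMod p) (f - C (coeff (Finsupp.single k 1) f) * X k) :=
    hom_congr_vars (RingHom.ext_int _ _)
      (fun i hi _ => by simp [φ, spZ, (Set.mem_Iio.1 (mem_supported.1 hq hi)).ne]) rfl
  rw [map_sub, map_sub, h1, h2, map_mul, map_mul, eq_intCast C, map_intCast, map_intCast,
    (ZMod.intCast_zmod_eq_zero_iff_dvd _ p).2 hd] at h3
  simp at h3

theorem HG_mem {k : ℤ} {f : G0 p} (hf : HG p k f) {i : ℕ} (h : k < sV p (i + 1)) :
    f ∈ supported (K0 p) (Set.Iio i) := by
  have s0 : ∀ j, 0 ≤ sV p (j + 1) := fun j => by rw [sV_eq]; positivity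
  refine mem_sup fun E hE j hj => by_contra fun h0 => ?_
  obtain ⟨d, hd⟩ := ne_zero_iff.1 (mem_support_iff.1 hE)
  have h1 := hf E hd
  have h2 : 0 ≤ Finsupp.weight (fun i => sV p (i + 1)) d := by
    rw [Finsupp.weight_apply]
    exact Finset.sum_nonneg fun l _ => nsmul_nonneg (s0 l) _
  have h3 : sV p (j + 1) ≤ dT p E := Finsupp.le_weight_of_ne_zero s0 h0
  have h4 : sV p (i + 1) ≤ sV p (j + 1) := by
    rw [sV_eq, sV_eq]; have := wv_mono p hj; omega
  omega

theorem eta0_spec' : ∃ g ∈ strict (G0 p), (∀ k, g.c (p ^ (k + 1) - 1) = X k) ∧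
    (∀ n i, n < wv p i → g.c n ∈ supported (K0 p) (Set.Iio i)) ∧
    ∃ ψ : MvPolynomial ℕ ℤ →+* G0 p, (∀ i, ψ (X i) = eta0 p i) ∧
      g⁻¹ • (haz p).map (B := G0 p) (φ0 p) = (haz p).map (B := G0 p) ψ := by
  have hg := (exists_etaS p).choose_spec.1
  have hgc := (exists_etaS p).choose_spec.2.1
  have hψ := (exists_etaS p).choose_spec.2.2.choose_spec.1
  refine ⟨InvSeries.map (ιS p) (exists_etaS p).choose, map_mem_strict (ιS p) hg, fun k => ?_,
    fun n i hn => ?_, (ιS p).comp (exists_etaS p).choose_spec.2.2.choose, fun i => rfl, ?_⟩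
  · rw [InvSeries.c_map, hgc, ιS, MvPolynomial.eval₂Hom_X']
    rfl
  · rw [InvSeries.c_map]
    refine HG_mem p (HG_ιS (m := n) (isWeightedHomogeneous_of_scale ?_)) (by rw [sV_eq]; omega)
    generalize (exists_etaS p).choose_spec.2.2.choose = ψ at hψ
    generalize (exists_etaS p).choose = g at hg hgc hψ
    have hL : PLoc p (LaurentPolynomial (S0 p)) :=
      ((ploc_Z0 p).map MvPolynomial.C).map LaurentPolynomial.C
    have hT : ∀ (x : ℕ ⊕ ℕ) (m : ℕ), wS p x = m → scaleHom (k := Z0 p) (wS p) (X x) =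
        (tU (S0 p) : LaurentPolynomial (S0 p)) ^ m * LaurentPolynomial.C (X x) := by
      rintro x m rfl
      rw [scaleHom_X]
      change _ = (LaurentPolynomial.T 1) ^ _ * _
      rw [LaurentPolynomial.T_pow, mul_one, mul_comm]
    have hφ : ∀ k, scaleHom (wS p) (φS p (X k)) = (tU (S0 p) : LaurentPolynomial (S0 p)) ^
        (p ^ (k + 1) - 1) * LaurentPolynomial.C (φS p (X k)) := fun k => by
      rw [φS_X]; exact hT _ _ rfl
    have hc : ∀ k, scaleHom (wS p) (g.c (p ^ (k + 1) - 1)) = (tU (S0 p) : LaurentPolynomial (S0 p)) ^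
        (p ^ (k + 1) - 1) * LaurentPolynomial.C (g.c (p ^ (k + 1) - 1)) := fun k => by
      rw [hgc]; exact hT _ _ rfl
    have h0 := scale_typical p hL (tU (S0 p)) (scaleHom (wS p)) LaurentPolynomial.C hg hψ hφ hc
    have h1 := haz_lin p (tU (S0 p)) (φ := LaurentPolynomial.C.comp (φS p))
      (φ' := (scaleHom (wS p)).comp (φS p)) hφ
    have h2 := haz_lin p (tU (S0 p)) (φ := LaurentPolynomial.C.comp ψ)
      (φ' := (scaleHom (wS p)).comp ψ) h0
    have h6 : InvSeries.map (scaleHom (wS p)) g = (InvSeries.lin (tU (S0 p)))⁻¹ *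
        InvSeries.map LaurentPolynomial.C g * InvSeries.lin (tU (S0 p)) := by
      refine eq_of_typical p hL (map_mem_strict _ hg) ?_ ⟨_, map_typical p _ hψ⟩
        ⟨(scaleHom (wS p)).comp ψ, ?_⟩ fun k => ?_
      · rw [mem_strict, c_conj_lin, pow_zero, one_mul, InvSeries.c_map, mem_strict.1 hg, map_one]
      · rw [h1, h2, ← map_typical p _ hψ, mul_inv_rev, mul_inv_rev, inv_inv, mul_smul, mul_smul,
          smul_inv_smul]
      · rw [c_conj_lin, InvSeries.c_map, InvSeries.c_map, hc]
    rw [← InvSeries.c_map, h6, c_conj_lin, InvSeries.c_map]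
    change (LaurentPolynomial.T 1) ^ _ * _ = _
    rw [LaurentPolynomial.T_pow, mul_one, mul_comm]
  · rw [φ0_eq]
    exact map_typical p (ιS p) hψ

/-! ### the leading terms -/

/-- `v_0 = p, v_1, v_2, …` -/
def vv0 : ℕ → K0 p
  | 0 => (p : K0 p)
  | i + 1 => X i

variable {p} {A : Type*} [CommRing A]

theorem map_mem_sup {R : Type*} [CommRing R] (θ : R →+* A) {f : MvPolynomial ℕ R} {i : ℕ}
    (hf : f ∈ supported R (Set.Iio i)) : map θ f ∈ supported A (Set.Iio i) :=
  mem_supported.2 ((Finset.coe_subset.2 (vars_map f θ)).trans (mem_supported.1 hf))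

theorem hom_mem {B : Type*} [CommRing B] (ψ : MvPolynomial ℕ ℤ →+* B) (T : Subring B) {k : ℕ}
    (h : ∀ l < k, ψ (X l) ∈ T) {f : MvPolynomial ℕ ℤ} (hf : f ∈ supported ℤ (Set.Iio k)) :
    ψ f ∈ T := by
  rw [supported_eq_adjoin_X] at hf
  induction hf using Algebra.adjoin_induction with
  | mem x hx => obtain ⟨l, hl, rfl⟩ := hx; exact h l hl
  | algebraMap r =>
    rw [eq_intCast (algebraMap ℤ (MvPolynomial ℕ ℤ)), map_intCast]; exact intCast_mem T r
  | add x y _ _ hx hy => rw [map_add]; exact T.add_mem hx hy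
  | mul x y _ _ hx hy => rw [map_mul]; exact T.mul_mem hx hy

theorem isUnit_int (θ : K0 p →+* A) {c : ℤ} (hc : ¬ (p : ℤ) ∣ c) : IsUnit (c : A) :=
  Z0.isUnit (((ploc_Z0 p).map C).map θ) ⟨c, hc⟩

theorem eta_lin (θ : K0 p →+* A) (h : ℕ) (h0 : ∀ i < h, θ (vv0 p i) = 0) (i : ℕ) :
    ∃ c : ℤ, ¬ (p : ℤ) ∣ c ∧ (c : MvPolynomial ℕ A) * map θ (eta0 p (h + i)) -
      (C (θ (vv0 p h)) * X i ^ p ^ h - C (θ (vv0 p h)) ^ p ^ (i + 1) * X i) ∈
        supported A (Set.Iio i) := by
  obtain ⟨g₀, hg₀, hgc, hgm, ψ₀, hψ₀, he⟩ := eta0_spec' p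
  set φ : MvPolynomial ℕ ℤ →+* MvPolynomial ℕ A := (map θ).comp (φ0 p) with hφ
  set ψ : MvPolynomial ℕ ℤ →+* MvPolynomial ℕ A := (map θ).comp ψ₀ with hψ
  set g := InvSeries.map (map θ : G0 p →+* MvPolynomial ℕ A) g₀ with hg
  have he' : g⁻¹ • (haz p).map φ = (haz p).map ψ := map_typical p _ he
  have hs : g • (haz p).map ψ = (haz p).map φ := by rw [← he', smul_inv_smul]
  have g1 : g.c 0 = 1 := map_mem_strict _ hg₀
  have φX : ∀ j, φ (X j) = C (θ (X j)) := fun j => by rw [hφ, RingHom.comp_apply, φ0_X, map_C]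
  have φC : ∀ f k, φ f ∈ supported A (Set.Iio k) := fun f k =>
    hom_mem φ (supported A (Set.Iio k)).toSubring (k := f.vars.sup id + 1)
      (fun l _ => by rw [φX]; exact Subalgebra.algebraMap_mem _ _)
      (mem_supported.2 fun l hl => Nat.lt_succ_of_le (Finset.le_sup (f := id) hl))
  have hv : ∀ j ≤ h, vv p j ((haz p).map φ) = C (θ (vv0 p j)) := by
    rintro (_ | j) hj
    · rw [vv_zero, vv0, map_natCast, map_natCast]
    · rw [vv_haz_of_zero p ?_ fun l hl => ?_, φX, vv0]
      · rw [← map_natCast (C : A →+* _), ← map_natCast θ, ← vv0, h0 0 (by omega), map_zero]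
      · rw [φX, ← vv0, h0 _ (by omega), map_zero]
  have hz : ∀ j < h, vv p j ((haz p).map φ) = 0 := fun j hj => by rw [hv j hj.le, h0 j hj, map_zero]
  have hv' := vv_smul_of_zero p h _ g⁻¹ hz
  rw [he', (mem_strict.1 ((strict _).inv_mem g1)), one_pow, mul_one, one_mul, hv h le_rfl] at hv'
  obtain ⟨V, V', g', V0, g0, cV, cV', cg, rel⟩ := exists_rel h _ g hv'.1
  rw [hs] at cV'
  have mψ : ∀ n, PowerSeries.coeff n (multSeries ((haz p).map ψ).toFG p) =
      ψ (PowerSeries.coeff n (multSeries (haz p).toFG p)) := fun n => by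
    rw [Law.map_toFG, ← map_multSeries, PowerSeries.coeff_map]
  have mφ : ∀ n, PowerSeries.coeff n V' = φ (PowerSeries.coeff (p ^ h * n)
      (multSeries (haz p).toFG p)) := fun n => by
    rw [cV', Law.map_toFG, ← map_multSeries, PowerSeries.coeff_map]
  -- the step
  have step : ∀ i, (∀ l < h + i, ψ (X l) ∈ supported A (Set.Iio i)) →
      vv p (h + i + 1) ((haz p).map ψ) -
        (C (θ (vv0 p h)) * X i ^ p ^ h - C (θ (vv0 p h)) ^ p ^ (i + 1) * X i) ∈
        supported A (Set.Iio i) := by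
    intro i ih
    have hN : 2 ≤ p ^ (i + 1) := Nat.one_lt_pow (Nat.succ_ne_zero i) hp.out.one_lt
    have a1 : ∀ n < p ^ (i + 1), PowerSeries.coeff n g.val ∈ supported A (Set.Iio i) := by
      rintro (_ | n) hn
      · rw [PowerSeries.coeff_zero_eq_constantCoeff_apply, g.cc]; exact zero_mem _
      · change g.c n ∈ _
        rw [hg, InvSeries.c_map]
        exact map_mem_sup θ (hgm n i (by unfold wv; omega))
    have a2 : ∀ n < p ^ (i + 1), PowerSeries.coeff n V ∈ supported A (Set.Iio i) := fun n hn => by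
      rw [cV, mψ]
      refine hom_mem ψ (supported A (Set.Iio i)).toSubring ih (mult_mem p ?_)
      rw [add_assoc, pow_add]
      exact Nat.mul_lt_mul_of_pos_left hn (pow_pos hp.out.pos h)
    have b1 := coeff_subst_mem (supported A (Set.Iio i)).toSubring V0 hN a1 a2
    have b2 := coeff_subst_mem (supported A (Set.Iio i)).toSubring (f := V') g0 hN
      (fun n _ => by rw [mφ]; exact φC _ _) fun n hn => by rw [cg]; exact pow_mem (a1 n hn) _
    have e1 : PowerSeries.coeff 1 g.val = 1 := g1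
    have e2 : PowerSeries.coeff (p ^ (i + 1)) g.val = X i := by
      have := hgc i
      rw [InvSeries.c, Nat.sub_add_cancel (by omega)] at this
      rw [hg, InvSeries.map_val, PowerSeries.coeff_map, this, map_X]
    have e3 : PowerSeries.coeff 1 V = C (θ (vv0 p h)) := by rw [cV, mul_one]; exact hv'.2
    have e4 : PowerSeries.coeff 1 V' = C (θ (vv0 p h)) := by rw [cV', mul_one]; exact hv h le_rfl
    have e5 : PowerSeries.coeff (p ^ (i + 1)) V = vv p (h + i + 1) ((haz p).map ψ) := by
      rw [cV, ← pow_add, ← add_assoc]; rfl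
    rw [rel, e1, e2, e3, e5] at b1
    rw [cg, cg, e1, e2, e4, one_pow, one_pow, mul_one, mφ] at b2
    have b3 : _ ∈ supported A (Set.Iio i) := add_mem (sub_mem b2 b1)
      (φC (PowerSeries.coeff (p ^ h * p ^ (i + 1)) (multSeries (haz p).toFG p)) i)
    convert b3 using 1
    ring
  have lin : ∀ j k, (∀ l < j, ψ (X l) ∈ supported A (Set.Iio k)) → ∃ c : ℤ, ¬ (p : ℤ) ∣ c ∧
      vv p (j + 1) ((haz p).map ψ) - c * ψ (X j) ∈ supported A (Set.Iio k) := fun j k ih => by
    obtain ⟨c, hc, h1⟩ := vv_lin p j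
    have := hom_mem ψ (supported A (Set.Iio k)).toSubring ih h1
    rw [map_sub, map_mul, eq_intCast C, map_intCast, ← vv_map] at this
    exact ⟨c, hc, this⟩
  have mono : ∀ {a b : ℕ} {f : MvPolynomial ℕ A}, a ≤ b → f ∈ supported A (Set.Iio a) →
      f ∈ supported A (Set.Iio b) := fun hab hf => supported_mono (Set.Iio_subset_Iio hab) hf
  have all : ∀ j, ψ (X j) ∈ supported A (Set.Iio (j + 1 - h)) := by
    intro j
    induction j using Nat.strong_induction_on with
    | _ j ih =>
      obtain ⟨c, hc, h1⟩ := lin j (j + 1 - h) fun l hl => mono (by omega) (ih l hl)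
      have h2 : vv p (j + 1) ((haz p).map ψ) ∈ supported A (Set.Iio (j + 1 - h)) := by
        rcases lt_trichotomy (j + 1) h with hj | hj | hj
        · rw [hv'.1 _ hj]; exact zero_mem _
        · rw [hj, hv'.2]; exact Subalgebra.algebraMap_mem _ _
        · obtain ⟨i, rfl⟩ : ∃ i, j = h + i := ⟨j - h, by omega⟩
          have h3 := mono (b := h + i + 1 - h) (by omega)
            (step i fun l hl => mono (by omega) (ih l hl))
          have hX : (X i : MvPolynomial ℕ A) ∈ supported A (Set.Iio (h + i + 1 - h)) :=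
            Algebra.subset_adjoin ⟨i, by change i < _; omega, rfl⟩
          have hC : C (θ (vv0 p h)) ∈ supported A (Set.Iio (h + i + 1 - h)) :=
            Subalgebra.algebraMap_mem _ _
          simpa using add_mem h3 (sub_mem (mul_mem hC (pow_mem hX (p ^ h)))
            (mul_mem (pow_mem hC (p ^ (i + 1))) hX))
      obtain ⟨u, hu⟩ := isUnit_int θ hc
      have h3 := Subalgebra.smul_mem _ (sub_mem h2 h1) (↑u⁻¹ : A)
      rwa [sub_sub_cancel, ← map_intCast (C : A →+* _), ← hu, ← smul_eq_C_mul, smul_smul,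
        Units.inv_mul, one_smul] at h3
  have ih : ∀ l < h + i, ψ (X l) ∈ supported A (Set.Iio i) := fun l hl => mono (by omega) (all l)
  obtain ⟨c, hc, h1⟩ := lin (h + i) i ih
  refine ⟨c, hc, ?_⟩
  have h2 := sub_mem (step i ih) h1
  rw [hψ, RingHom.comp_apply, hψ₀] at h2
  convert h2 using 1
  ring

/-- **the leading term of the right unit** -/
theorem eta_Ld (θ : K0 p →+* A) (h : ℕ) (h0 : ∀ i < h, θ (vv0 p i) = 0)
    (hu : IsUnit (θ (vv0 p h))) (i : ℕ) :
    Ld (Finsupp.single i (p ^ h)) (map θ (eta0 p (h + i))) := by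
  classical
  obtain ⟨c, hc, h1⟩ := eta_lin θ h h0 i
  obtain ⟨u, hu'⟩ := isUnit_int θ hc
  have h2 : Ld (Finsupp.single i (p ^ h)) (C (θ (vv0 p h)) * X i ^ p ^ h -
      C (θ (vv0 p h)) ^ p ^ (i + 1) * X i : MvPolynomial ℕ A) := by
    rw [← map_pow, C_mul_X_pow_eq_monomial, C_mul_X_eq_monomial]
    rcases Nat.eq_zero_or_pos h with rfl | hpos
    · rw [pow_zero, ← map_sub]
      refine Ld.mono _ ?_
      obtain ⟨n, hn⟩ : ∃ n, p ^ (i + 1) = n + 2 :=
        ⟨p ^ (i + 1) - 2, by
          have : 1 < p ^ (i + 1) := Nat.one_lt_pow (Nat.succ_ne_zero i) hp.out.one_lt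
          omega⟩
      have h3 := isUnit_int θ (c := 1 - p ^ (n + 1)) fun h3 => by
        have h4 := dvd_add h3 (dvd_pow_self (p : ℤ) (Nat.succ_ne_zero n))
        rw [sub_add_cancel] at h4
        exact (Nat.prime_iff_prime_int.1 hp.out).not_dvd_one h4
      have h4 := hu.mul h3
      rw [vv0, map_natCast] at h4 ⊢
      rw [hn]
      convert h4 using 1
      push_cast
      ring
    · rw [sub_eq_add_neg, ← map_neg]
      refine (Ld.mono _ hu).add fun E hE => ?_
      rw [Finset.mem_singleton.1 (support_monomial_subset hE)]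
      exact cx_lt i (fun j hj => by simp [hj.ne']) (by
        simpa using Nat.one_lt_pow hpos.ne' hp.out.one_lt)
  have h3 := (Ld.mono 0 (u⁻¹).isUnit).mul (h2.add (supp_lt h1 (pow_pos hp.out.pos h)))
  rwa [zero_add, add_sub_cancel, ← map_intCast (C : A →+* _), ← hu', ← C_apply, ← mul_assoc,
    ← map_mul, Units.inv_mul, map_one, one_mul] at h3

/-- **ALG0**: the basis -/
theorem alg0 (θ : K0 p →+* A) {h : ℕ} (h2 : h ≤ 2) (h0 : ∀ i < h, θ (vv0 p i) = 0)
    (hu : IsUnit (θ (vv0 p h))) :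
    ∃ bb : Module.Basis (Sm (2 - h) (p ^ h) × (ℕ →₀ ℕ)) A (MvPolynomial ℕ A),
      ∀ x, bb x = monomial x.1.1 1 * x.2.prod fun j n => map θ (eta0 p (j + 2)) ^ n :=
  exists_basis_sm (2 - h) (pow_pos hp.out.pos h) _ fun j => by
    have := eta_Ld θ h h0 hu (2 - h + j)
    rwa [show h + (2 - h + j) = j + 2 by omega] at this

end Vale.Agent.P221X.EXI.Alg
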