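import Vale.Agent.P221X.EXI.Idem
import Vale.Agent.P221X.Fin.Spec
import Vale.Agent.P221.H174.NonVac

/-!
# P221X, block EXIST: the setting

* `BX p b` : `b : MU ⟶ P` is the Brown-Peterson monoid, with the classes `v j = v_{j+1}`;
* `W1 T p`, `BX.vv : W1 T p ⟶ P` : the family `v_3, v_4, …`;
* `IsQuo v m q` : `q` is the quotient by `v` on homotopy;
* `exists_BX` : the statement layer gives `BX`.
-/

open CategoryTheory MonoidalCategory Limits Pretriangulated MonObj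

set_option linter.unusedSectionVars false

universe u

noncomputable section

namespace Vale.Agent.P221X.EXI

open Vale.Agent.P251 Vale.Agent.P251.T Vale.Agent.P251.M Vale.Agent.P251.S Vale.Agent.P251.F
  Vale.Agent.P251.I Vale.Agent.P251.Q Vale.Agent.P257.H80 Vale.Agent.P257.H702
  Vale.Agent.P221 Vale.Agent.P221.H924 Vale.Agent.P221.H746 Vale.Agent.P093.N0
open Vale.Agent.P251.M.EvenSpheres

section gen

variable {T : Type u} [Category.{0} T] [Preadditive T] [HasZeroObject T] [HasShift T ℤ]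
  [∀ n : ℤ, (shiftFunctor T n).Additive] [Pretriangulated T] [IsTriangulated T]
  [MonoidalCategory T] [SymmetricCategory T] [TensorTriangulated T] [MonoidalClosed T]
  [HasCoproducts.{0} T] [HasProducts.{0} T] [StableCat T]

/-- half the degree of `v_{j+1}` -/
abbrev dv (p j : ℕ) : ℤ := ((p ^ (j + 1) - 1 : ℕ) : ℤ)

/-- The Brown-Peterson monoid `P` with the Hazewinkel generators `v j = v_{j+1}`. -/
structure BX {D : MUData T} (p : ℕ) [Fact p.Prime] {P : T} [MonObj P] [IsCommMonObj P]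
    (b : D.R ⟶ P) [IsMonHom b] where
  F : SpaceFunctor T
  e : F.S.obj CCF ≅ (stdEven T).L
  hD : MUUniv e D
  hA : MUAll D
  mon : IsBPMon p b
  good : Good p P
  κ : HRing (stdEven T) P →+* MvPolynomial ℕ (ZMod p)
  Φ : MvPolynomial ℕ ℤ →+* HRing (stdEven T) P
  v : ∀ j : ℕ, (stdEven T).S (dv p j) ⟶ P
  surj : Function.Surjective κ
  ker : ∀ y, κ y = 0 → ∃ y', y = (p : HRing (stdEven T) P) * y'
  law : (lawOf b).map κ = hazk p
  lawΦ : lawOf b = (haz p).map Φ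
  Φ_X : ∀ j, Φ (MvPolynomial.X j) = HRing.of (stdEven T) P (dv p j) (v j)
  comp : κ.comp Φ = redP p

variable (T) in
/-- the spheres of `v_3, v_4, …` -/
abbrev S1 (p j : ℕ) : T := (stdEven T).S (dv p (j + 2))

variable (T) in
/-- the sum of the spheres of `v_3, v_4, …` -/
abbrev W1 (p : ℕ) : T := ∐ S1 T p

/-- `q : R ⟶ C` is the quotient of `R` by `v` on homotopy groups -/
structure IsQuo {R W₁ C : T} [MonObj R] (v : W₁ ⟶ R) (m : ModStr R C) (q : R ⟶ C) : Prop where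
  lin : (ModStr.self R).IsLinear m q
  v_q : (ModStr.self R).ext v ≫ q = 0
  surj : ∀ (k : ℤ) (y : (𝟙_ T)⟦k⟧ ⟶ C), ∃ u : (𝟙_ T)⟦k⟧ ⟶ R, u ≫ q = y
  ker : ∀ (k : ℤ) (u : (𝟙_ T)⟦k⟧ ⟶ R), u ≫ q = 0 →
    ∃ z : (𝟙_ T)⟦k⟧ ⟶ R ⊗ W₁, u = z ≫ (ModStr.self R).ext v

namespace BX

variable {D : MUData T} {p : ℕ} [Fact p.Prime] {P : T} [MonObj P] [IsCommMonObj P]
  {b : D.R ⟶ P} [IsMonHom b] (X : BX p b)

/-- the family `v_3, v_4, …` -/
def vv : W1 T p ⟶ P := Sigma.desc fun j => X.v (j + 2)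

@[reassoc]
theorem ι_vv (j : ℕ) : Sigma.ι (S1 T p) j ≫ X.vv = X.v (j + 2) := Sigma.ι_desc _ _

theorem κ_v (j : ℕ) : X.κ (HRing.of (stdEven T) P (dv p j) (X.v j)) = MvPolynomial.X j := by
  rw [← X.Φ_X, ← RingHom.comp_apply, X.comp, redP_X]

theorem κ_isWH {w : ℕ} (y : (stdEven T).S (w : ℤ) ⟶ P) :
    (X.κ (HRing.of (stdEven T) P w y)).IsWeightedHomogeneous (wN p) w :=
  kappa_isWH X.hD X.hA X.mon X.law y

theorem κ_neg {w : ℤ} (hw : w < 0) (y : (stdEven T).S w ⟶ P) :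
    X.κ (HRing.of (stdEven T) P w y) = 0 :=
  kappa_neg X.hD X.hA X.mon X.law hw y

end BX

end gen

open Vale.Agent.P251.St Vale.Agent.P251.St.SHCat Vale.Agent.P257.St

variable {T : SHCat} {S : Susp T} {p : ℕ} [hp : Fact p.Prime] {P : RingSp T}
  {o : St.Oriented S P} {φ : P257.St.GHom S p P}

/-- the setting, from the statement layer -/
theorem exists_BX {D : MUData T.C} (hD : MUUniv (M.lineIso S.toSpaceFunctor) D) (hA : MUAll D)
    (U : MUFam (M.lineIso S.toSpaceFunctor) D) (h : P257.St.IsBrownPeterson p o φ) :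
    ∃ (b : D.R ⟶ P.obj) (_ : IsMonHom b) (X : BX p b), X.v = xE (hazV φ) := by
  obtain ⟨b, hb, ho⟩ := U.exists_mapS o
  have hmon : IsBPMon p b := isBPMon_of_isBrownPeterson ptypOut hD U ptypIn h ho
  obtain ⟨κ, hs, hk, hl⟩ := exists_kappa hD hA hmon
  obtain ⟨Φ, hφ, hΦ⟩ := ptypOut P o φ h.typ
  have hcomp : κ.comp Φ = redP p := by
    refine H924.kappa_comp hΦ ?_
    rw [U.lawS_eq ho]
    exact hl
  exact ⟨b, hb, ⟨_, _, hD, hA, hmon, good_bp hD hA hmon, κ, Φ, xE (hazV φ), hs, hk, hl,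
    (U.lawS_eq ho).symm.trans hΦ, fun j => hφ _ ⟨vEl p (j + 1), vEl_mem p (j + 1)⟩, hcomp⟩, rfl⟩

end Vale.Agent.P221X.EXI
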