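import Vale.Agent.P221X.EXI.LH
import Vale.Agent.P221X.EXI.Defs

/-!
# P221X, block EXIST: the homotopy of `BP ⊗ M`, `BP ⊗ V(1)` and of the local quotients

`xIn` : the structure `XIn` for the quotients at the heights one and two.
-/

open CategoryTheory MonoidalCategory Limits Pretriangulated MonObj

set_option linter.unusedSectionVars false

universe u

noncomputable section

namespace Vale.Agent.P221X.EXI

open Vale.Agent.P251 Vale.Agent.P251.T Vale.Agent.P251.M Vale.Agent.P251.S Vale.Agent.P251.I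
  Vale.Agent.P251.F Vale.Agent.P251.Q Vale.Agent.P221X.TC Vale.Agent.P251.S.ModStr
  Vale.Agent.P221.H924 Vale.Agent.P221.H746 Vale.Agent.P257.H80 Vale.Agent.P257.H702
open Vale.Agent.P251.M.EvenSpheres

/-! ### Ideals of variables -/

section alg

open MvPolynomial

variable {k : Type} [CommRing k]

/-- the ideal of the variables in `s` -/
abbrev JX (k : Type) [CommRing k] (s : Set ℕ) : Ideal (MvPolynomial ℕ k) := Ideal.span (X '' s)

theorem JX_reg {s : Set ℕ} {h : ℕ} (hh : h ∉ s) {w y : MvPolynomial ℕ k} (hw : w - X h ∈ JX k s)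
    (hy : w * y ∈ JX k s) : y ∈ JX k s := by
  have h1 : X h * y ∈ JX k s := by
    have := Ideal.sub_mem _ hy (Ideal.mul_mem_right y _ hw)
    rwa [sub_mul, sub_sub_cancel] at this
  refine mem_ideal_span_X_image.2 fun m hm => ?_
  obtain ⟨i, hi, h2⟩ := mem_ideal_span_X_image.1 h1 (Finsupp.single h 1 + m) (by
    rwa [mem_support_iff, coeff_X_mul, ← mem_support_iff])
  refine ⟨i, hi, fun h3 => h2 ?_⟩
  rw [Finsupp.add_apply, h3, Finsupp.single_eq_of_ne (by rintro rfl; exact hh hi), add_zero]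

theorem JX_pos {w : ℕ → ℕ} {n : ℕ} (hn : n ≠ 0) {y : MvPolynomial ℕ k}
    (hy : y.IsWeightedHomogeneous w n) : y ∈ JX k Set.univ :=
  mem_ideal_span_X_image.2 fun m hm => by_contra fun h => hn (by
    rw [← hy (mem_support_iff.1 hm), show m = 0 from Finsupp.ext fun i =>
      by_contra fun hi => h ⟨i, trivial, hi⟩, map_zero])

theorem vk_sub (p : ℕ) [Fact p.Prime] (a : ℕ) : vk p a - X a ∈ JX (ZMod p) {j | j < a} := by
  have h := vv_haz_sub_mem p (redP p) a
  rw [HI, Ideal.span_insert, natCast_zero, Ideal.span_singleton_zero, bot_sup_eq, redP_X,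
    Set.image_congr fun j _ => redP_X p j] at h
  exact h

end alg

variable {T : Type u} [Category.{0} T] [Preadditive T] [HasZeroObject T] [HasShift T ℤ]
  [∀ n : ℤ, (shiftFunctor T n).Additive] [Pretriangulated T] [IsTriangulated T]
  [MonoidalCategory T] [SymmetricCategory T] [TensorTriangulated T] [MonoidalClosed T]
  [HasCoproducts.{0} T] [HasProducts.{0} T] [StableCat T]
  {P : T} [MonObj P] [IsCommMonObj P] {V : T} (i : 𝟙_ T ⟶ V)

/-! ### Reductions -/

variable (P) in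
/-- the reduction -/
def rho : HRing (stdEven T) P →+ He (P ⊗ V) := He.map (rdM i P)

theorem rho_of (j : ℤ) (z : Se T j ⟶ P) :
    rho P i (HRing.of _ P j z) = He.of _ j (z ≫ rdM i P) := He.map_of _ j z

theorem dsp_mul {d j : ℤ} (w : Se T d ⟶ P) (z : Se T j ⟶ P) :
    He.of _ (d + j) (dsp d (z ≫ rdM i P) ≫ (self P).ext w ▷ V) =
      rho P i (HRing.of _ P d w * HRing.of _ P j z) := by
  have h1 : (Se T d ◁ rdM i P) ≫ (α_ _ P V).inv = rdM i (Se T d ⊗ P) := by
    rw [rdM, rdM, whiskerLeft_comp, Category.assoc, associator_inv_naturality_right]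
    simp
  rw [of_mul_of (p := d + j) rfl, rho_of, dsp, gmul, EvenSpheres.ext, tensorHom_def']
  congr 1
  simp only [Category.assoc, whiskerLeft_comp]
  rw [reassoc_of% h1, ← comp_whiskerRight, ← rdM_nat, ModStr.ext,
    ← BraidedCategory.braiding_naturality_left_assoc]
  simp only [Category.assoc]
  congr 3
  exact (IsCommMonObj.mul_comm_assoc P _).trans (by rfl)

theorem fw_rho {d : ℤ} {f : Se T d ⊗ V ⟶ V} {w : Se T d ⟶ P}
    (h : f ≫ (λ_ V).inv ≫ η[P] ▷ V = w ▷ V) (z : HRing (stdEven T) P) :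
    fw f P (rho P i z) = rho P i (HRing.of _ P d w * z) := by
  induction z using He.ind with
  | zero => simp only [map_zero, mul_zero]
  | add x y hx hy => simp only [map_add, mul_add, hx, hy]
  | of j z =>
    have h1 : TD.mulR (self P) w = (self P).ext w := by
      rw [TD.mulR, ← BraidedCategory.braiding_naturality_right_assoc]
      exact congrArg _ (IsCommMonObj.mul_comm P)
    refine Eq.trans ?_ (dsp_mul i w z)
    rw [← h1, ← (α_ P (Se T d) V).hom_inv_id_assoc (_ ▷ V), ← TD.whiskerLeft_eq _ h, ← fw_dsp]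
    exact congrArg _ (rho_of i j z)

variable {J : Type} {d : J → ℤ} (v : ∀ j, Se T (d j) ⟶ P)

theorem im_of_mem {z : HRing (stdEven T) P}
    (hz : z ∈ Ideal.span (Set.range fun j => HRing.of _ P (d j) (v j))) :
    ∃ y, He.map ((self P).ext (Sigma.desc v) ▷ V) y = rho P i z := by
  suffices h : ∀ c, z * c ∈ ((He.map ((self P).ext (Sigma.desc v) ▷ V)).range).comap (rho P i) by
    have h1 := h 1
    rwa [_root_.mul_one] at h1
  induction hz using Submodule.span_induction with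
  | zero => exact fun c => by rw [zero_mul]; exact zero_mem _
  | add x y _ _ hx hy => exact fun c => by rw [add_mul]; exact add_mem (hx c) (hy c)
  | smul a x _ hx => exact fun c => by rw [smul_eq_mul, mul_comm a, _root_.mul_assoc]; exact hx _
  | mem x hx =>
    obtain ⟨j, rfl⟩ := hx
    intro c
    induction c using He.ind with
    | zero => rw [mul_zero]; exact zero_mem _
    | add x y hx hy => rw [mul_add]; exact add_mem hx hy
    | of k c =>
      refine ⟨He.of _ _ (dsp (d j) (c ≫ rdM i P) ≫ (P ◁ Sigma.ι (fun j => Se T (d j)) j) ▷ V),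
        Eq.trans ?_ (dsp_mul i (v j) c)⟩
      rw [He.map_of, Category.assoc, ← comp_whiskerRight, comp_ext, Sigma.ι_desc]

theorem exists_sum3 {J : Type} (S : J → T) {k : ℤ} (y : Se T k ⟶ (P ⊗ ∐ S) ⊗ V) :
    ∃ (s : Finset J) (g : ∀ j, Se T k ⟶ (P ⊗ S j) ⊗ V),
      y = ∑ j ∈ s, g j ≫ (P ◁ Sigma.ι S j) ▷ V := by
  obtain ⟨s, g, hg⟩ := compact_sumL (V ⊗ P) S (M.isSphere_std k)
    (y ≫ (β_ _ _).hom ≫ (α_ _ _ _).inv)
  refine ⟨s, fun j => g j ≫ (α_ _ _ _).hom ≫ (β_ _ _).inv, ?_⟩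
  rw [← cancel_mono (β_ _ _).hom, ← cancel_mono (α_ _ _ _).inv, Category.assoc, hg,
    Preadditive.sum_comp, Preadditive.sum_comp]
  refine Finset.sum_congr rfl fun j _ => ?_
  simp only [Category.assoc]
  rw [BraidedCategory.braiding_naturality_left_assoc, Iso.inv_hom_id_assoc,
    associator_inv_naturality_right, Iso.hom_inv_id_assoc]

theorem mem_of_im (hs : ∀ (j : ℤ) (x : Se T j ⟶ P ⊗ V), ∃ z, z ≫ rdM i P = x)
    (y : He ((P ⊗ ∐ fun j => Se T (d j)) ⊗ V)) :
    ∃ z ∈ Ideal.span (Set.range fun j => HRing.of _ P (d j) (v j)),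
      rho P i z = He.map ((self P).ext (Sigma.desc v) ▷ V) y := by
  change _ ∈ (Ideal.span (Set.range fun j => HRing.of _ P (d j) (v j))).toAddSubgroup.map (rho P i)
  induction y using He.ind with
  | zero => rw [map_zero]; exact zero_mem _
  | add x y hx hy => rw [map_add]; exact add_mem hx hy
  | of k y =>
    obtain ⟨s, g, rfl⟩ := exists_sum3 _ y
    rw [map_sum, map_sum]
    refine sum_mem fun j _ => ?_
    obtain ⟨l, rfl⟩ : ∃ l, k = d j + l := ⟨k - d j, by ring⟩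
    obtain ⟨x, hx⟩ := exists_dsp (g j)
    obtain ⟨z, rfl⟩ := hs l x
    rw [He.map_of, Category.assoc, ← comp_whiskerRight, comp_ext, Sigma.ι_desc, hx, dsp_mul]
    exact ⟨_, Ideal.mul_mem_right _ _ (Ideal.subset_span ⟨j, rfl⟩), rfl⟩

theorem odd3 (h : OddZero (P ⊗ V)) : OddZero ((P ⊗ ∐ fun j => Se T (d j)) ⊗ V) :=
  (OddZero.coprod fun j => h.tensS (d j)).of_iso
    (α_ _ _ _ ≪≫ whiskerLeftIso P (β_ _ _) ≪≫ (α_ _ _ _).symm)

theorem oddS {Z : T} (h : OddZero (Z ⊗ V)) (d : ℤ) : OddZero (Z ⊗ (Se T d ⊗ V)) :=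
  (h.tensS d).of_iso (α_ _ _ _ ≪≫ whiskerLeftIso Z (β_ _ _))

/-! ### The coefficients -/

namespace BX

variable {D : MUData T} {p : ℕ} [Fact p.Prime] {b : D.R ⟶ P} [IsMonHom b] (X : BX p b)

/-- the homotopy of `P ⊗ V` is the quotient by the variables in `s` -/
structure Cy (s : Set ℕ) : Prop where
  surj : ∀ (j : ℤ) (x : Se T j ⟶ P ⊗ V), ∃ z, z ≫ rdM i P = x
  odd : OddZero (P ⊗ V)
  ker : ∀ z, rho P i z = 0 ↔ X.κ z ∈ JX (ZMod p) s

theorem κ_vK (a : ℕ) : X.κ (HRing.of _ P _ (vK D p b (a + 1))) - MvPolynomial.X a ∈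
    JX (ZMod p) {j | j < a} := by
  rw [← vv_lawOf, ← vv_map, X.law]
  exact vk_sub p a

variable {i X} {s : Set ℕ}

theorem Cy.rho_surj (H : X.Cy i s) : Function.Surjective (rho P i) := He.map_surj H.surj

theorem Cy.im_iff (H : X.Cy i s) (z : HRing (stdEven T) P) :
    (∃ y, He.map ((self P).ext X.vv ▷ V) y = rho P i z) ↔
      X.κ z ∈ JX (ZMod p) (s ∪ {j | 2 ≤ j}) := by
  have h1 : (Ideal.span (Set.range fun j => HRing.of _ P _ (X.v (j + 2)))).map X.κ =
      JX (ZMod p) {j | 2 ≤ j} := by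
    rw [Ideal.map_span, ← Set.range_comp]
    congr 1
    ext y
    exact ⟨fun ⟨j, h⟩ => ⟨j + 2, by simp, (X.κ_v _).symm.trans h⟩, fun ⟨j, hj, h⟩ => by
      obtain ⟨j, rfl⟩ := Nat.exists_eq_add_of_le' hj
      exact ⟨j, (X.κ_v _).trans h⟩⟩
  rw [JX, Set.image_union, Ideal.span_union]
  constructor
  · rintro ⟨y, hy⟩
    obtain ⟨z', hz, h⟩ := mem_of_im i (fun j => X.v (j + 2)) H.surj y
    have h2 := (H.ker (z - z')).1 (by rw [map_sub, h]; exact sub_eq_zero.2 hy.symm)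
    rw [← sub_add_cancel z z', map_add]
    exact Submodule.add_mem_sup h2 (h1 ▸ Ideal.mem_map_of_mem _ hz :)
  · intro h
    obtain ⟨x, hx, y, hy, h⟩ := Submodule.mem_sup.1 h
    obtain ⟨z', hz, rfl⟩ := (Ideal.mem_map_iff_of_surjective _ X.surj).1 (h1.ge hy)
    have h2 := (H.ker (z - z')).2 (by rwa [map_sub, ← h, add_sub_cancel_right])
    rw [map_sub, sub_eq_zero] at h2
    rw [h2]
    exact im_of_mem i _ hz

theorem Cy.reg (H : X.Cy i s) {d : ℤ} {f : Se T d ⊗ V ⟶ V} {w : Se T d ⟶ P}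
    (hf : f ≫ (λ_ V).inv ≫ η[P] ▷ V = w ▷ V) {h : ℕ} (hs : h ∉ s ∪ {j | 2 ≤ j})
    (hw : X.κ (HRing.of _ P d w) - MvPolynomial.X h ∈ JX (ZMod p) s) (n : ℕ) (a : He (P ⊗ V))
    (ha : ∃ y, He.map ((self P).ext X.vv ▷ V) y = (fw f P)^[n] a) :
    ∃ y, He.map ((self P).ext X.vv ▷ V) y = a := by
  induction n generalizing a with
  | zero => exact ha
  | succ n ih =>
    obtain ⟨z, rfl⟩ := H.rho_surj a
    have h1 := ih _ ha
    rw [fw_rho i hf, H.im_iff, map_mul] at h1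
    exact (H.im_iff z).2
      (JX_reg hs (Ideal.span_mono (Set.image_mono Set.subset_union_left) hw) h1)

variable (X) (W : TD.Twr D p)

theorem cyM : X.Cy W.iM ∅ where
  surj j x := by
    obtain ⟨a, ha⟩ := lift_even X.good.oddTf W.distM j ((stdSph j).inv ≫ x)
    exact ⟨(stdSph j).hom ≫ a, by rw [Category.assoc, ← ha, Iso.hom_inv_id_assoc]⟩
  odd := by
    rintro _ ⟨k, rfl⟩ x
    exact good_odd X.good W.distM k x
  ker z := by
    rw [JX, Set.image_empty, Ideal.span_empty, Ideal.mem_bot]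
    constructor
    · intro h
      obtain ⟨s, hs⟩ := He.exists_sum (Y := P) z
      rw [hs, map_sum]
      refine Finset.sum_eq_zero fun j _ => ?_
      obtain ⟨c, hc⟩ := ModP.exists_zsmul_of_comp_eq_zero W.distM (He.cp P j z)
        ((He.cp_map _ j z).symm.trans (congrArg _ h))
      rw [hc]
      refine (congrArg X.κ (of_zsmul' j p c)).trans ?_
      rw [map_mul, Int.cast_natCast, map_natCast, natCast_zero, zero_mul]
    · intro h
      obtain ⟨y, rfl⟩ := X.ker z h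
      clear h
      induction y using He.ind with
      | zero => rw [mul_zero, map_zero]
      | add x y hx hy => rw [mul_add, map_add, hx, hy, add_zero]
      | of j c =>
        have h := of_zsmul' j p c
        rw [Int.cast_natCast] at h
        refine (congrArg _ h.symm).trans ?_
        rw [rho_of, He.of_eq_zero]
        exact ModP.zsmul_comp_eq_zero W.distM c

theorem κ_v1 : X.κ (HRing.of _ P _ (vK D p b 1)) = MvPolynomial.X 0 := by
  have h := X.κ_vK 0
  simpa [JX, sub_eq_zero] using h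

theorem rho_j1 (z : HRing (stdEven T) P) :
    rho P (W.iM ≫ W.j1) z = He.map (P ◁ W.j1) (rho P W.iM z) := by
  rw [rho, rho, He.map_map, rdM, rdM, whiskerLeft_comp, Category.assoc]

theorem cyV : X.Cy (W.iM ≫ W.j1) {0} := by
  obtain ⟨δ, hδ⟩ := distL P W.dist1
  have H := X.cyM W
  refine ⟨fun j x => ?_, oddZero₃ hδ H.odd (inj_of_fw _ ?_), fun z => ?_⟩
  · obtain ⟨y, rfl⟩ := surj_even hδ (oddS H.odd _) j x
    obtain ⟨z, rfl⟩ := H.surj j y
    exact ⟨z, by rw [rdM, rdM, whiskerLeft_comp, Category.assoc, Category.assoc]⟩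
  · refine (injective_iff_map_eq_zero _).2 fun a ha => ?_
    obtain ⟨z, rfl⟩ := H.rho_surj a
    rw [fw_rho _ (W.hur1 b), H.ker, map_mul] at ha
    exact (H.ker z).2 (JX_reg (h := 0) (by simp) (by rw [X.κ_v1, sub_self]; exact zero_mem _) ha)
  · rw [JX, Set.image_singleton, Ideal.mem_span_singleton', rho_j1]
    have h1 : ∀ c, rho P W.iM z = fw W.f1 P (rho P W.iM c) ↔ X.κ c * MvPolynomial.X 0 = X.κ z :=
      fun c => by
        rw [fw_rho _ (W.hur1 b), ← sub_eq_zero, ← map_sub, H.ker, JX, Set.image_empty,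
          Ideal.span_empty, Ideal.mem_bot, map_sub, map_mul, X.κ_v1, sub_eq_zero, mul_comm, eq_comm]
    constructor
    · intro h
      obtain ⟨y, hy⟩ := He.exact hδ _ h
      obtain ⟨a, ha⟩ := fw_range W.f1 y
      obtain ⟨c, rfl⟩ := H.rho_surj a
      exact ⟨_, (h1 c).1 (ha.trans hy).symm⟩
    · rintro ⟨c, hc⟩
      obtain ⟨c, rfl⟩ := X.surj c
      rw [(h1 c).2 hc]
      exact map_fw_zero _ (comp_distTriang_mor_zero₁₂ _ W.dist1) _

theorem κ_v2 : X.κ (HRing.of _ P _ (vK D p b 2)) - MvPolynomial.X 1 ∈ JX (ZMod p) {0} := by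
  have h := X.κ_vK 1
  rwa [show {j : ℕ | j < 1} = {0} from Set.ext fun j => Nat.lt_one_iff] at h

/-- the classes of positive degree -/
theorem pos {k : ℤ} (hk : 0 < k) (a : Se T k ⟶ P ⊗ W.V1) :
    ∃ y a', He.of _ k a = He.map ((self P).ext X.vv ▷ W.V1) y + fw W.f2 P a' := by
  have H := X.cyV W
  obtain ⟨z, rfl⟩ := H.surj k a
  obtain ⟨k, rfl⟩ := Int.eq_ofNat_of_zero_le hk.le
  have h1 := JX_pos (by omega) (X.κ_isWH z)
  rw [show (Set.univ : Set ℕ) = insert 1 ({0} ∪ {j | 2 ≤ j}) from Set.ext fun j => by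
    simp; omega, JX, Set.image_insert_eq, Ideal.mem_span_insert] at h1
  obtain ⟨c, g, hg, h1⟩ := h1
  obtain ⟨c, rfl⟩ := X.surj c
  obtain ⟨y, hy⟩ := (H.im_iff (HRing.of _ P k z - HRing.of _ P _ (vK D p b 2) * c)).2 (by
    have h2 := Ideal.mul_mem_right (X.κ c) _
      (Ideal.span_mono (Set.image_mono (Set.subset_union_left (t := {j | 2 ≤ j}))) (X.κ_v2))
    have h3 := Ideal.sub_mem _ hg h2
    rw [map_sub, map_mul, h1]
    convert h3 using 1
    ring)
  exact ⟨y, rho P _ c, by rw [hy, fw_rho _ (W.hur2 b), map_sub, sub_add_cancel, rho_of]⟩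

end BX

/-- **The homotopy of the local quotients.** -/
theorem xIn {D : MUData T} {p : ℕ} [Fact p.Prime] {b : D.R ⟶ P} [IsMonHom b] (X : BX p b)
    (W : TD.Twr D p) {K₁ K₂ : T} {Λ₁ : LocFunctor K₁} {Λ₂ : LocFunctor K₂} (Q₁ : Quo Λ₁ X.vv)
    (Q₂ : Quo Λ₂ X.vv) (h1 : ∀ (N : T) (_ : ModStr P N), LH W.f1 (Λ₁.u N))
    (h2 : ∀ (N : T) (_ : ModStr P N), LH W.f2 (Λ₂.u N)) :
    XIn W ((self P).ext X.vv) Q₁.q Q₂.q := by
  have HM := X.cyM W
  have HV := X.cyV W
  obtain ⟨δ, hδ⟩ := distL P W.dist1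
  refine ⟨HM.odd, Q₁.surjH (h1 _ (self P)), fun a ha => ?_, Q₁.oddH ((h1 _ (self P)).odd HM.odd),
    Q₂.oddH ((h2 _ (self P)).odd HV.odd), fun a ha => ?_, fun j hj x => ?_⟩
  · obtain ⟨n, h⟩ := Q₁.kerH (h1 _ (self P)) (h1 _ (fr P _)) a ha
    exact HM.reg (W.hur1 b) (h := 0) (by simp) (by rw [X.κ_v1, sub_self]; exact zero_mem _) n a h
  · rw [← whisker_exchange, ← He.map_map] at ha
    obtain ⟨n, h⟩ := Q₂.kerH (h2 _ (self P)) (h2 _ (fr P _)) _ ha
    obtain ⟨y, hy⟩ := HV.reg (W.hur2 b) (h := 1) (by simp) X.κ_v2 n _ h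
    obtain ⟨δ', hδ'⟩ := distL (P ⊗ W1 T p) W.dist1
    obtain ⟨y, rfl⟩ := He.map_surj (surj_even hδ' (oddS (odd3 HM.odd) _)) y
    obtain ⟨z, hz⟩ := He.exact hδ (a - He.map ((self P).ext X.vv ▷ W.M) y) (by
      rw [map_sub, ← hy, He.map_map, He.map_map, whisker_exchange, sub_self])
    obtain ⟨a', ha'⟩ := fw_range W.f1 z
    exact ⟨a', y, by rw [ha', hz, sub_add_cancel]⟩
  · suffices h : ∃ a : Se T j ⟶ P ⊗ W.V1, a ≫ Q₂.q ▷ W.V1 = x by
      obtain ⟨a, rfl⟩ := h
      obtain ⟨a, rfl⟩ := surj_even hδ (oddS HM.odd _) j a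
      exact ⟨a, by rw [Category.assoc, whisker_exchange]⟩
    have h3 : ∀ (j : ℤ) (x : Se T j ⟶ Q₂.X ⊗ W.V1) (a : He (P ⊗ W.V1)),
        He.of _ j x = He.map (Q₂.q ▷ W.V1) a → ∃ a : Se T j ⟶ P ⊗ W.V1, a ≫ Q₂.q ▷ W.V1 = x :=
      fun j x a h => ⟨He.cp _ j a, by rw [← He.cp_map, ← h, He.cp_same]⟩
    obtain ⟨n, a, ha⟩ := Q₂.surjH (h2 _ (self P)) (He.of _ j x)
    induction n generalizing j with
    | zero => exact h3 j x a ha
    | succ n ih =>
      have h4 : (0 : ℤ) < (p : ℤ) ^ 2 - 1 + j := by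
        have : (1 : ℤ) < p := by exact_mod_cast (Fact.out : p.Prime).one_lt
        nlinarith
      rw [Function.iterate_succ_apply, fw_dsp] at ha
      obtain ⟨a₀, h5⟩ := ih _ h4.le _ ha
      obtain ⟨y, a', h6⟩ := X.pos W h4 a₀
      refine h3 j x a' ((Q₂.bijH (h2 _ (self P)).bij).1 ?_)
      rw [fw_dsp, ← h5, ← He.map_of, h6, map_add, Q₂.map_v_q, zero_add, map_fw]

end Vale.Agent.P221X.EXI
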