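import Vale.Agent.P221X.EXI.QDefs
import Vale.Agent.P221X.EXQ.Defs
import Vale.Agent.P221X.EXG.Cover

/-!
# P221X, block EXIST: the gluing step

`exists_bIn` : the connective cover of the pullback of `X² ⟶ L₁ X² ⟵ X¹` is a module under `R`
which modulo `p` is the quotient of `R` by `v`.
-/

open CategoryTheory MonoidalCategory Limits Pretriangulated

set_option linter.unusedSectionVars false

universe u

noncomputable section

namespace Vale.Agent.P221X.EXI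

open Vale.Agent.P251 Vale.Agent.P251.T Vale.Agent.P251.M Vale.Agent.P251.S Vale.Agent.P251.I
  Vale.Agent.P251.S.ModStr Vale.Agent.P221X.TC Vale.Agent.P221X.EXG Vale.Agent.P221.Loc

variable {T : Type u} [Category.{0} T] [Preadditive T] [HasZeroObject T] [HasShift T ℤ]
  [∀ n : ℤ, (shiftFunctor T n).Additive] [Pretriangulated T] [IsTriangulated T]
  [MonoidalCategory T] [SymmetricCategory T] [TensorTriangulated T] [MonoidalClosed T]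
  [HasCoproducts.{0} T] [HasProducts.{0} T] [StableCat T]
  {D : MUData T} {p : ℕ} (W : TD.Twr D p)

theorem van_se {N : T} (h : OddZero N) (j : ℤ) : Van (Se T j) N :=
  NM.HZ.iso (h (2 * j + 1) ⟨j, rfl⟩) ((NM.shAdd _ (2 * j) 1 _ rfl).symm ≪≫
    (shiftFunctor T (1 : ℤ)).mapIso (seI T j).symm) (Iso.refl _)

theorem hz_M {Z : T} {k : ℤ} (h : NM.HZ (Sph T k) Z) (h' : NM.HZ (Sph T (k - 1)) Z) :
    NM.HZ (Sph T k) (Z ⊗ W.M) := by
  obtain ⟨d, hd⟩ := distL Z W.distM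
  exact TA.Ou.hz_ext (rot_of_distTriang _ hd) (h.iso (Iso.refl _) (ρ_ Z).symm)
    (TA.Ou.hz_sh (sub_add_cancel k 1) (h'.iso (Iso.refl _) (ρ_ Z).symm))

theorem inj_cov (h0 : Conn (0 : ℤ) (𝟙_ T)) {B P : T} {c : B ⟶ P} (hc : IsCov 0 c) {k : ℤ}
    (hk : 0 ≤ k) (y : Sph T k ⟶ B ⊗ W.M) (hy : y ≫ c ▷ W.M = 0) : y = 0 := by
  obtain ⟨Z, g, d, hT⟩ := distinguished_cocone_triangle c
  refine inj_of_van (dist_whiskerRight W.M hT) ?_ y hy
  exact NM.HZ.iso (hz_M W (k := k + 1) (hc.cof_zero h0 hT _ (by omega))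
    (hc.cof_zero h0 hT _ (by omega))) (NM.shAdd _ k 1 _ rfl).symm (Iso.refl _)

theorem even_of_he {Y Y' : T} {f : Y ⟶ Y'} (j : ℤ) (y : Sph T (2 * j) ⟶ Y')
    (h : ∃ x, He.map f x = He.of Y' j ((seI T j).hom ≫ y)) :
    ∃ x : Sph T (2 * j) ⟶ Y, x ≫ f = y := by
  obtain ⟨x, hx⟩ := h
  have h1 := congrArg (He.cp Y' j) hx
  rw [He.cp_map, He.cp_same] at h1
  exact ⟨(seI T j).inv ≫ He.cp Y j x, by rw [Category.assoc, h1, Iso.inv_hom_id_assoc]⟩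

variable {R K₁ K₂ : T} [MonObj R] {J J' : Type} {k : J' → ℤ} {v : ∐ (fun j => Se T (k j)) ⟶ R}
  {Λ₁ : LocFunctor K₁} {Λ₂ : LocFunctor K₂}

theorem ext_comp_zero {A N : T} {w : A ⟶ R} (m : ModStr R N) {q : R ⟶ N}
    (hq : (self R).IsLinear m q) : (self R).ext w ≫ q = 0 ↔ w ≫ q = 0 := by
  rw [ext_comp _ m _ _ hq]
  exact ⟨fun h => by rw [← m.unitMap_ext (w ≫ q), h, comp_zero], fun h => by
    rw [h, ModStr.ext, MonoidalPreadditive.whiskerLeft_zero, zero_comp]⟩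

/-- **The gluing step.** -/
theorem exists_bIn (h0 : Conn (0 : ℤ) (𝟙_ T)) (hR : Conn (0 : ℤ) R) (hk : ∀ j, 0 ≤ k j)
    (rb : P093.Nak.RBasis (stdEven T) R R J) (Q₁ : Quo Λ₁ v) (Q₂ : Quo Λ₂ v)
    (hX : XIn W ((self R).ext v) Q₁.q Q₂.q) (hY : YIn W Q₁.X (Λ₁.u Q₂.X)) (hQ : RowQ W) :
    ∃ B, Nonempty (BIn W.iM v B) := by
  have hl := Λ₁.isLocal Q₂.X
  have hu := Λ₁.isLinear_u Q₂.mod
  obtain ⟨f, hf, hqf⟩ := Q₁.exists_desc hl (Λ₁.mod Q₂.mod) (Q₂.q_lin.comp hu)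
    (by rw [← Category.assoc, Q₂.v_q, zero_comp])
  obtain ⟨H⟩ := exists_hpb (Λ₁.u Q₂.X) f
  have hK : KEq K₁ H.i' := H.keq' (Λ₁.keq _)
  obtain ⟨v0, v2⟩ := Q₁.van rb (Λ₁.mod Q₂.mod) hl hY.oY
  obtain ⟨m, hm, hm'⟩ := H.exists_mod hu hf (v0.of_keq hK hl)
    (v2.of_keq ((hK.whiskerLeft R).whiskerLeft R) hl)
  obtain ⟨q, hq, hq2, hq1⟩ := H.exists_lin hm hm' Q₂.q_lin Q₁.q_lin hqf.symm
    (van_of_rb rb (Λ₁.mod Q₂.mod) hY.oY).2.1
  have hP := hQ _ _ _ _ f H q hq2 hq1 Q₁.v_q Q₂.v_q hX hY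
  obtain ⟨B, c, mB, g, hc, hB, -, hg, hgc⟩ := exists_cov_under h0 hR m hq
  have hv : v ≫ g = 0 := by
    refine Sigma.hom_ext _ _ fun j => ?_
    have h1 : (Sigma.ι _ j ≫ v) ≫ q = 0 := by
      refine H.eq_zero_of_van (van_se hY.oY _) _ ?_ ?_
      · rw [Category.assoc, Category.assoc, hq2, (ext_comp_zero _ Q₂.q_lin).1 Q₂.v_q, comp_zero]
      · rw [Category.assoc, Category.assoc, hq1, (ext_comp_zero _ Q₁.q_lin).1 Q₁.v_q, comp_zero]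
    rw [comp_zero, ← cancel_epi (seI T (k j)).inv, comp_zero]
    refine (hc.bij _ (by have := hk j; omega)).1 ?_
    simp only [Category.assoc, hgc, zero_comp] at h1 ⊢
    rw [h1, comp_zero]
  have hgM : g ▷ W.M ≫ c ▷ W.M = q ▷ W.M := by rw [← comp_whiskerRight, hgc]
  refine ⟨B, ⟨⟨mB, g, hg, (ext_comp_zero mB hg).2 hv, fun n y => ?_, fun n x hx => ?_⟩⟩⟩
  · rcases lt_or_ge n 0 with hn | hn
    · exact ⟨0, by rw [zero_comp, hz_M W (hB n hn) (hB _ (by omega)) y]⟩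
    have h1 : ∃ x : Sph T n ⟶ R ⊗ W.M, x ≫ q ▷ W.M = y ≫ c ▷ W.M := by
      rcases Int.even_or_odd' n with ⟨j, rfl | rfl⟩
      · exact even_of_he j _ (hP.surj _)
      · exact ⟨0, by rw [zero_comp, hP.odd _ ⟨j, rfl⟩ hn (y ≫ _)]⟩
    obtain ⟨x, hx⟩ := h1
    refine ⟨x, sub_eq_zero.1 (inj_cov W h0 hc hn _ ?_)⟩
    rw [Preadditive.sub_comp, Category.assoc, hgM, hx, sub_self]
  · rcases Int.even_or_odd' n with ⟨j, rfl | rfl⟩
    · obtain ⟨z, hz⟩ := even_of_he j x (hX.k1 _ (by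
        rw [He.map_of, ← hq1, ← hgc, comp_whiskerRight, comp_whiskerRight, Category.assoc,
          Category.assoc, reassoc_of% hx, zero_comp, comp_zero, map_zero]))
      exact ⟨z, hz.symm⟩
    · exact ⟨0, by rw [zero_comp, hX.oR _ ⟨j, rfl⟩ x]⟩

end Vale.Agent.P221X.EXI
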