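import Vale.Agent.P221X.EXI.Defs
import Vale.Agent.P221.H658.E0

/-!
# P221X, block EXIST: translation to the statement layer

* `isQuotient_of` : `IsQuo` gives `StI.IsQuotient`;
* `rowSTD_of` : the row STD from the existence of the quotient in the setting `BX`.
-/

open CategoryTheory MonoidalCategory Limits Pretriangulated MonObj

set_option linter.unusedSectionVars false

noncomputable section

namespace Vale.Agent.P221X.EXI

open Vale.Agent.P251 Vale.Agent.P251.T Vale.Agent.P251.M Vale.Agent.P251.S Vale.Agent.P251.F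
  Vale.Agent.P251.I Vale.Agent.P251.Q Vale.Agent.P257.H80 Vale.Agent.P257.H702
  Vale.Agent.P221 Vale.Agent.P221.H924 Vale.Agent.P221.H746 Vale.Agent.P093.N0
  Vale.Agent.P251.St Vale.Agent.P251.St.SHCat Vale.Agent.P257.St
open Vale.Agent.P251.M.EvenSpheres

variable {T : SHCat} {S : Susp T} {p : ℕ} [hp : Fact p.Prime] {P : RingSp T}
  {o : St.Oriented S P} {φ : P257.St.GHom S p P}

theorem isQuotient_of {D : MUData T.C} {b : D.R ⟶ P.obj} [IsMonHom b] (X : BX p b)
    {x : ∀ j : ℕ, SHCat.Hom (S.obj (Cn (p ^ j - 1))) P.obj} (hX : X.v = xE x) {C : T.C}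
    {m : ModStr P.obj C} {q : P.obj ⟶ C} (h : IsQuo X.vv m q) : StI.IsQuotient 2 x m.act q := by
  have hv : ∀ j, P.obj ◁ Sigma.ι (S1 T.C p) j ≫ (ModStr.self P.obj).ext X.vv =
      P.obj ◁ (isoE S (p ^ (j + 2 + 1) - 1)).inv ≫ mx x (j + 2 + 1) := by
    intro j
    rw [ModStr.ext, ← whiskerLeft_comp_assoc, X.ι_vv, hX, xE, mx, whiskerLeft_comp, Category.assoc]
    rfl
  refine ⟨⟨?_, m.mul_act⟩, h.lin, h.surj, fun k u => Iff.trans ?_ (H658.inGen_iff x u)⟩
  · change (λ_ C).inv ≫ (η[P.obj] ▷ C) ≫ m.act = 𝟙 C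
    rw [m.one_act, Iso.inv_hom_id]
  · change u ≫ q = 0 ↔ P221.St.InGen 2 x T.one (u ≫ (ρ_ P.obj).inv)
    constructor
    · intro hu
      obtain ⟨z, rfl⟩ := h.ker k u hu
      obtain ⟨s, g, rfl⟩ := compact_sumL P.obj (S1 T.C p) ⟨k, ⟨Iso.refl _⟩⟩ z
      rw [Preadditive.sum_comp, Preadditive.sum_comp]
      refine inGen_sum s _ fun j _ => ?_
      rw [Category.assoc (g j), hv, Category.assoc, Category.assoc, rightUnitor_inv_naturality,
        ← Category.assoc, ← Category.assoc]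
      exact inGen_single (by omega) _
    · intro hu
      have h1 := comp_eq_zero_of_inGen m h.lin (fun j hj => ?_) hu
      · rwa [Category.assoc, ← rightUnitor_inv_naturality, ← Category.assoc,
          ← cancel_mono (ρ_ C).hom, Category.assoc, Iso.inv_hom_id, Category.comp_id,
          zero_comp] at h1
      · obtain ⟨j, rfl⟩ : ∃ i, j = i + 2 + 1 := ⟨j - 3, by omega⟩
        have h2 : mx x (j + 2 + 1) ≫ q = 0 := by
          rw [← cancel_epi (P.obj ◁ (isoE S (p ^ (j + 2 + 1) - 1)).inv), ← Category.assoc, ← hv,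
            Category.assoc, h.v_q, comp_zero, comp_zero]
        have h3 : ModStr.unitMap P.obj _ ≫ mx x (j + 2 + 1) = x (j + 2 + 1) :=
          (ModStr.self P.obj).unitMap_ext _
        rw [← h3, Category.assoc, h2, comp_zero]

/-- the existence of the quotient in the setting `BX` -/
def RowQUO (T : SHCat) (p : ℕ) [Fact p.Prime] : Prop :=
  ∀ (D : MUData T.C) (P : T.C) [MonObj P] [IsCommMonObj P] (b : D.R ⟶ P) [IsMonHom b]
    (X : BX p b), ∃ (C : T.C) (m : ModStr P C) (q : P ⟶ C), IsQuo X.vv m q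

theorem rowSTD_of (h : RowQUO T p) : Fin.RowSTD S p := by
  intro P o φ hP
  obtain ⟨D, hD, hA, ⟨U⟩⟩ := H924.exists_mu S.toSpaceFunctor (M.lineIso S.toSpaceFunctor)
  obtain ⟨b, _, X, hX⟩ := exists_BX hD hA U hP
  obtain ⟨C, m, q, hq⟩ := h D P.obj b X
  exact ⟨C, m.act, q, isQuotient_of X hX hq⟩

end Vale.Agent.P221X.EXI
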