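import Vale.Agent.P221X.EXI.Defs
import Vale.Agent.P251.S.RegE

/-!
# P221X, block EXIST: the image of `P ⊗ W₁ ⟶ P` on homotopy

* `BX.im_iff` : in even degrees it is the ideal `(v_3, v_4, …)`;
* `BX.good_W` : `P ⊗ W₁` is `Good`;
* `BX.sat` : the image is saturated with respect to `p`;
* `BX.exists_add` : elements which are in the image modulo `p`.
-/

open CategoryTheory MonoidalCategory Limits Pretriangulated MonObj

set_option linter.unusedSectionVars false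

universe u

noncomputable section

namespace Vale.Agent.P221X.EXI

open Vale.Agent.P251 Vale.Agent.P251.T Vale.Agent.P251.M Vale.Agent.P251.S Vale.Agent.P251.F
  Vale.Agent.P251.I Vale.Agent.P251.Q Vale.Agent.P257.H80 Vale.Agent.P257.H702
  Vale.Agent.P221 Vale.Agent.P221.H924 Vale.Agent.P221.H746 Vale.Agent.P093.N0
open Vale.Agent.P251.M.EvenSpheres

variable {T : Type u} [Category.{0} T] [Preadditive T] [HasZeroObject T] [HasShift T ℤ]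
  [∀ n : ℤ, (shiftFunctor T n).Additive] [Pretriangulated T] [IsTriangulated T]
  [MonoidalCategory T] [SymmetricCategory T] [TensorTriangulated T] [MonoidalClosed T]
  [HasCoproducts.{0} T] [HasProducts.{0} T] [StableCat T]

theorem good_sph {p : ℕ} {X : T} (h : Good p X) (l : ℤ) : Good p (X ⊗ (stdEven T).S l) := by
  have e1 : (X ⊗ (stdEven T).S l)⟦-(2 * l)⟧ ≅ X :=
    (shiftFunctor T (-(2 * l))).mapIso (whiskerLeftIso X (stdSph l) ≪≫ tensorSph (2 * l) X) ≪≫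
      (shiftFunctorCompIsoId T (2 * l) (-(2 * l)) (by ring)).app X
  refine ⟨fun w a ha => ?_, fun k a ha => tf_tensor h.oddTf (stdSph l) k a ha, fun k a => ?_⟩
  · exact tf_of_shift (X' := (stdEven T).S (w - l)) (-(2 * l))
      (stdSph (w - l) ≪≫ (shiftFunctorAdd' T (2 * w) (-(2 * l)) (2 * (w - l)) (by ring)).app _ ≪≫
        (shiftFunctor T (-(2 * l))).mapIso (stdSph w).symm) e1 (h.tfE _) a ha
  · exact div_of_shift (X' := (𝟙_ T)⟦2 * (k - l) + 1⟧) (-(2 * l))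
      ((shiftFunctorAdd' T (2 * k + 1) (-(2 * l)) (2 * (k - l) + 1) (by ring)).app _) e1
      (h.oddDiv _) a

theorem good_coprod {p : ℕ} (Z : T) {I : Type} (F : I → T) (h : ∀ i, Good p (Z ⊗ F i)) :
    Good p (Z ⊗ ∐ F) := by
  have h1 : ∀ {A : T} (_ : IsSphere A) (_ : ∀ i (a : A ⟶ Z ⊗ F i), (p : ℤ) • a = 0 → a = 0)
      (a : A ⟶ Z ⊗ ∐ F), (p : ℤ) • a = 0 → a = 0 := by
    intro A hA h2 a ha
    obtain ⟨π, s, hs⟩ := exists_sum_pr Z F hA a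
    rw [hs]
    refine Finset.sum_eq_zero fun i _ => ?_
    rw [h2 i (a ≫ Z ◁ π i) (by rw [← Preadditive.zsmul_comp, ha, zero_comp]), zero_comp]
  refine ⟨fun w => h1 ⟨_, ⟨stdSph w⟩⟩ fun i => (h i).tfE w,
    fun k => h1 ⟨_, ⟨Iso.refl _⟩⟩ fun i => (h i).oddTf k, fun k a => ?_⟩
  obtain ⟨s, g, rfl⟩ := compact_sumL Z F ⟨_, ⟨Iso.refl _⟩⟩ a
  choose c hc using fun i => (h i).oddDiv k (g i)
  refine ⟨∑ i ∈ s, c i ≫ Z ◁ Sigma.ι F i, ?_⟩
  rw [Finset.smul_sum]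
  exact Finset.sum_congr rfl fun i _ => by rw [hc i, Preadditive.zsmul_comp]

/-- no `p`-torsion in all degrees -/
theorem good_tf {p : ℕ} {X : T} (h : Good p X) (k : ℤ) (a : (𝟙_ T)⟦k⟧ ⟶ X)
    (ha : (p : ℤ) • a = 0) : a = 0 := by
  obtain ⟨w, rfl | rfl⟩ := Int.even_or_odd' k
  · rw [← cancel_epi (stdSph w).hom, comp_zero]
    exact h.tfE w _ (by rw [← Preadditive.comp_zsmul, ha, comp_zero])
  · exact h.oddTf w a ha

/-- the homotopy modulo `p` lifts -/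
theorem good_lift {p : ℕ} {X M : T} (h : Good p X) {i : 𝟙_ T ⟶ M} {δ : M ⟶ (𝟙_ T)⟦(1 : ℤ)⟧}
    (hM : Triangle.mk ((p : ℤ) • 𝟙 (𝟙_ T)) i δ ∈ distTriang T) (k : ℤ)
    (f : (𝟙_ T)⟦k⟧ ⟶ X ⊗ M) : ∃ a : (𝟙_ T)⟦k⟧ ⟶ X, f = a ≫ rdM i X := by
  obtain ⟨w, rfl | rfl⟩ := Int.even_or_odd' k
  · exact lift_even h.oddTf hM w f
  · exact ⟨0, by rw [good_odd h hM w f, zero_comp]⟩

namespace BX

variable {D : MUData T} {p : ℕ} [Fact p.Prime] {P : T} [MonObj P] [IsCommMonObj P]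
  {b : D.R ⟶ P} [IsMonHom b] (X : BX p b)

@[reassoc]
theorem ι_ext (j : ℕ) : P ◁ Sigma.ι (S1 T p) j ≫ (ModStr.self P).ext X.vv =
    P ◁ X.v (j + 2) ≫ μ[P] := by
  rw [ModStr.ext, ← whiskerLeft_comp_assoc, X.ι_vv]
  rfl

include X in
theorem good_W : Good p (P ⊗ W1 T p) := good_coprod P _ fun _ => good_sph X.good _

include X in
theorem ring_tf (y : HRing (stdEven T) P) (hy : (p : HRing (stdEven T) P) * y = 0) : y = 0 := by
  refine DFinsupp.ext fun w => X.good.tfE w _ ?_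
  have h1 : (p : ℤ) • y = 0 := by rw [zsmul_eq_mul, Int.cast_natCast, hy]
  exact (DFinsupp.zsmul_apply _ _ _).symm.trans (congrArg (fun z : HRing (stdEven T) P => z w) h1)

/-- the components of the elements of the ideal are in the image -/
theorem im_of_mem {y : HRing (stdEven T) P} (hy : y ∈ Ideal.span (xc X.v '' {j | 2 ≤ j}))
    (w : ℤ) : ∃ z : (stdEven T).S w ⟶ P ⊗ W1 T p,
      (y w : (stdEven T).S w ⟶ P) = z ≫ (ModStr.self P).ext X.vv := by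
  obtain ⟨t, ht, c, rfl⟩ := (Submodule.mem_span_image_iff_exists_fun _).1 hy
  have h1 : ((∑ i : t, c i • xc X.v i : HRing (stdEven T) P) w : (stdEven T).S w ⟶ P) =
      ∑ i : t, gmul (sub_add_cancel w (dv p i)) (c i (w - dv p i)) (X.v i) := by
    refine (DFinsupp.finsetSum_apply _ _ _).trans (Finset.sum_congr rfl fun i _ => ?_)
    exact mul_of_apply (c i) (sub_add_cancel w _) (X.v i)
  have h2 : ∀ i, 2 ≤ i → ∀ a : (stdEven T).S (w - dv p i) ⟶ P,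
      ∃ z : (stdEven T).S w ⟶ P ⊗ W1 T p,
        gmul (sub_add_cancel w (dv p i)) a (X.v i) = z ≫ (ModStr.self P).ext X.vv := by
    intro i hi a
    obtain ⟨j, rfl⟩ : ∃ j, i = j + 2 := ⟨i - 2, by omega⟩
    exact ⟨(((stdEven T).mu _ _ w (sub_add_cancel w _)).inv ≫ a ▷ _) ≫ P ◁ Sigma.ι (S1 T p) j, by
      rw [Category.assoc, X.ι_ext, whiskerLeft_comp_mul]⟩
  choose z hz using fun i : t => h2 i (ht i.2) (c i (w - dv p i))
  exact ⟨∑ i : t, z i, by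
    rw [h1, Preadditive.sum_comp]
    exact Finset.sum_congr rfl fun i _ => hz i⟩

/-- **the image in even degrees** -/
theorem im_iff (w : ℤ) (u : (stdEven T).S w ⟶ P) :
    (∃ z : (stdEven T).S w ⟶ P ⊗ W1 T p, u = z ≫ (ModStr.self P).ext X.vv) ↔
      HRing.of (stdEven T) P w u ∈ Ideal.span (xc X.v '' {j | 2 ≤ j}) := by
  constructor
  · rintro ⟨z, rfl⟩
    obtain ⟨s, g, rfl⟩ := compact_sumL P (S1 T p) ⟨_, ⟨stdSph w⟩⟩ z
    rw [Preadditive.sum_comp, of_sum]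
    refine Ideal.sum_mem _ fun j _ => ?_
    obtain ⟨a, ha⟩ := exists_of_mul (E := stdEven T) (K := P) (X.v (j + 2)) (g j)
    rw [Category.assoc, X.ι_ext, ha, ← of_mul_of (by ring)]
    exact Ideal.mul_mem_left _ _ (Ideal.subset_span ⟨j + 2, Nat.le_add_left 2 j, rfl⟩)
  · intro h
    have h1 : (HRing.of (stdEven T) P w u) w = u :=
      DirectSum.of_eq_same (β := (stdEven T).Gr P) _ _
    rw [← h1]
    exact X.im_of_mem h w

/-- **saturation** -/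
theorem sat (k : ℤ) (x : (𝟙_ T)⟦k⟧ ⟶ P) (z : (𝟙_ T)⟦k⟧ ⟶ P ⊗ W1 T p)
    (h : (p : ℤ) • x = z ≫ (ModStr.self P).ext X.vv) :
    ∃ z' : (𝟙_ T)⟦k⟧ ⟶ P ⊗ W1 T p, x = z' ≫ (ModStr.self P).ext X.vv := by
  obtain ⟨w, rfl | rfl⟩ := Int.even_or_odd' k
  · have h1 := (X.im_iff w ((p : ℤ) • ((stdSph w).hom ≫ x))).1 ⟨(stdSph w).hom ≫ z, by
      rw [← Preadditive.comp_zsmul, h, Category.assoc]⟩
    rw [H924.of_zsmul] at h1
    obtain ⟨z', hz⟩ := (X.im_iff w _).2 (tf_all p X.surj X.ker X.ring_tf (n := 2) (x := xc X.v)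
      (fun j _ => by
        rw [X.κ_v]
        exact MvPolynomial.isWeightedHomogeneous_X _ _ _)
      (fun j _ => by
        rw [X.κ_v, MvPolynomial.coeff_X, if_pos rfl]
        exact one_ne_zero) _ h1)
    exact ⟨(stdSph w).inv ≫ z', by rw [Category.assoc, ← hz, Iso.inv_hom_id_assoc]⟩
  · obtain ⟨z', rfl⟩ := X.good_W.oddDiv w z
    refine ⟨z', sub_eq_zero.1 (X.good.oddTf w _ ?_)⟩
    rw [smul_sub, h, Preadditive.zsmul_comp, sub_self]

theorem sat_pow (n : ℕ) (k : ℤ) (x : (𝟙_ T)⟦k⟧ ⟶ P) (z : (𝟙_ T)⟦k⟧ ⟶ P ⊗ W1 T p)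
    (h : (p : ℤ) ^ n • x = z ≫ (ModStr.self P).ext X.vv) :
    ∃ z' : (𝟙_ T)⟦k⟧ ⟶ P ⊗ W1 T p, x = z' ≫ (ModStr.self P).ext X.vv := by
  induction n generalizing z with
  | zero => exact ⟨z, by rw [← h, pow_zero, one_smul]⟩
  | succ n ih =>
    obtain ⟨z', hz⟩ := X.sat k _ z (by rw [← h, pow_succ', mul_smul])
    exact ih z' hz

/-- elements which are in the image modulo `p` -/
theorem exists_add {M : T} {i : 𝟙_ T ⟶ M} {δ : M ⟶ (𝟙_ T)⟦(1 : ℤ)⟧}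
    (hM : Triangle.mk ((p : ℤ) • 𝟙 (𝟙_ T)) i δ ∈ distTriang T) (k : ℤ) (x : (𝟙_ T)⟦k⟧ ⟶ P)
    (z : (𝟙_ T)⟦k⟧ ⟶ (P ⊗ W1 T p) ⊗ M) (h : x ≫ rdM i P = z ≫ (ModStr.self P).ext X.vv ▷ M) :
    ∃ (z' : (𝟙_ T)⟦k⟧ ⟶ P ⊗ W1 T p) (x' : (𝟙_ T)⟦k⟧ ⟶ P),
      x = z' ≫ (ModStr.self P).ext X.vv + (p : ℤ) • x' := by
  obtain ⟨z', rfl⟩ := good_lift X.good_W hM k z
  obtain ⟨x', hx⟩ := ModP.exists_zsmul_of_comp_eq_zero hM (x - z' ≫ (ModStr.self P).ext X.vv) (by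
    change _ ≫ rdM i P = 0
    rw [Preadditive.sub_comp, h, Category.assoc, Category.assoc, rdM_nat, sub_self])
  exact ⟨z', x', by rw [← hx, add_sub_cancel]⟩

end BX

end Vale.Agent.P221X.EXI
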