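import Vale.Agent.P221X.EXI.KeqH
import Vale.Agent.P221X.EXI.Glue
import Vale.Agent.P221X.EXI.Coef
import Vale.Agent.P221X.EXI.Tr
import Vale.Agent.P221X.EXG.Q
import Vale.Agent.P221X.EXQ.Last

/-!
# P221X, block EXIST: the quotient of `BP` by `v_3, v_4, …` exists for `p ≥ 5`
-/

open CategoryTheory MonoidalCategory MonObj Limits Pretriangulated

set_option linter.unusedSectionVars false

universe u

noncomputable section

namespace Vale.Agent.P221X.EXI.Close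

open Vale.Agent.P251 Vale.Agent.P251.S Vale.Agent.P251.T Vale.Agent.P251.M Vale.Agent.P251.I
  Vale.Agent.P257.H80 Vale.Agent.P221X.TC Vale.Agent.P221

section gen

variable {T : Type u} [Category.{0} T] [Preadditive T] [HasZeroObject T]
    [HasShift T ℤ] [∀ n : ℤ, (shiftFunctor T n).Additive] [Pretriangulated T] [IsTriangulated T]
    [MonoidalCategory T] [SymmetricCategory T] [TensorTriangulated T] [MonoidalClosed T]
    [HasCoproducts.{0} T] [HasProducts.{0} T] [StableCat T]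
  {D : MUData T} {p : ℕ} [hp : Fact p.Prime] {P : T} [MonObj P] [IsCommMonObj P]
  {b : D.R ⟶ P} [IsMonHom b] (X : BX p b)

include X

theorem conn : Conn (0 : ℤ) P := by
  obtain ⟨Rp, _, _, l, _, hl, f, _, g, _, _, hfg, _⟩ := H746.exists_retract X.hD X.mon
  have h1 : Conn (0 : ℤ) D.R :=
    Vale.Agent.P257.H762.BigCell.conn' D.conn_unit (Loc.bigCell_R D)
  refine Conn.of_retract f g hfg fun k hk y => ?_
  obtain ⟨m, x, hm, hx⟩ := (IsPLoc.isLocPi hl).num k y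
  exact H746.zero_of_smul_of_local (IsPLoc.isLoc hl).loc hm y (by rw [hx, h1 k hk x, zero_comp])

theorem exists_quot (h5 : 5 ≤ p) : ∃ (C : T) (m : ModStr P C) (q : P ⟶ C), IsQuo X.vv m q := by
  obtain ⟨W⟩ := TD.exists_twr D h5
  obtain ⟨U₁⟩ := exists_stel W.f1
  obtain ⟨U₂⟩ := exists_stel W.f2
  have hL : ∀ K : T, Nonempty (LocFunctor K) := fun K =>
    nonempty_locFunctor (H.nonempty_bLoc_of_stableCat K)
  obtain ⟨Λ₁⟩ := hL (P ⊗ U₁.obj)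
  obtain ⟨Λ₂⟩ := hL (P ⊗ U₂.obj)
  obtain ⟨Q₁⟩ := X.quoT1 W U₁ P Λ₁
  obtain ⟨Q₂⟩ := X.quoT2 W U₂ P Λ₂
  have hX := xIn X W Q₁ Q₂
    (fun N a => ⟨bij1 W b U₁ (Λ₁.isLocal _), surj_u U₁ Λ₁ a, ker_u U₁ Λ₁ a,
      odd_u (W.hur1 b) U₁ Λ₁ a W.finM⟩)
    fun N a => ⟨bij2 W b U₂ (Λ₂.isLocal _), surj_u U₂ Λ₂ a, ker_u U₂ Λ₂ a,
      odd_u (W.hur2 b) U₂ Λ₂ a W.fin1⟩
  obtain ⟨B, ⟨c⟩⟩ := exists_bIn W (k := fun j => dv p (j + 2)) D.conn_unit (conn X)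
    (fun j => Int.natCast_nonneg _) (H246.rbB X.hD X.mon) Q₁ Q₂ hX
    (yIn W b U₁ U₂ Λ₁ Q₂.mod Q₁.loc Q₂.loc hX.o2) (rowQ W)
  exact X.last' W.distM c fun K hK => (hL K).elim fun Λ => ⟨Λ, X.quo0' Λ hK⟩

end gen

open Vale.Agent.P251.St

/-- **Row STD.** -/
theorem rowSTD {T : SHCat} (S : Susp T) {p : ℕ} [Fact p.Prime] (h5 : 5 ≤ p) : Fin.RowSTD S p :=
  rowSTD_of fun _ _ _ _ _ _ X => exists_quot X h5

end Vale.Agent.P221X.EXI.Close
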