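import Vale.Agent.P221X.TC.Loc
import Vale.Agent.P221.H395.Comp
import Vale.Agent.P221X.EXI.QDefs

/-!
# P221X, block EXIST, row HT: localisation at `R ⊗ U`, `U` the telescope of `f : S^{2d} ⊗ V ⟶ V`

* `keq_of_even` : a criterion for `U`-equivalences; `surj_of_keq`, `ker_of_keq`, `odd_of_keq`;
* `keq_of_lin` : a linear `R ⊗ Z`-equivalence of modules is a `Z`-equivalence;
* `keq_f`, `isIso_of_local`, `fw_bij_of_local` : `f` is invertible on the local objects;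
* `local_of_isIso`, `pComplete_of_local`, `oddZero_of_mod`, `oddZero_step` : reductions.
-/

open CategoryTheory MonoidalCategory Limits Pretriangulated MonObj

set_option linter.unusedSectionVars false

universe u

noncomputable section

namespace Vale.Agent.P221X.EXI

open Vale.Agent.P251 Vale.Agent.P251.T Vale.Agent.P251.M Vale.Agent.P251.S Vale.Agent.P251.I
  Vale.Agent.P257.H702 Vale.Agent.P221X.TC Vale.Agent.P221.H395
open Vale.Agent.P251.M.EvenSpheres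

variable {T : Type u} [Category.{0} T] [Preadditive T] [HasZeroObject T] [HasShift T ℤ]
  [∀ n : ℤ, (shiftFunctor T n).Additive] [Pretriangulated T] [IsTriangulated T]
  [MonoidalCategory T] [SymmetricCategory T] [TensorTriangulated T] [MonoidalClosed T]
  [HasCoproducts.{0} T] [HasProducts.{0} T] [StableCat T]

/-! ### The operator `fw` -/

@[reassoc]
theorem sw_mid (A : T) {Z Z' : T} (g : Z ⟶ Z') (V : T) :
    A ◁ (g ▷ V) ≫ (sw A Z' V).hom = (sw A Z V).hom ≫ g ▷ (A ⊗ V) := by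
  rw [sw_hom, sw_hom, associator_inv_naturality_middle_assoc, ← comp_whiskerRight_assoc,
    BraidedCategory.braiding_naturality_right, comp_whiskerRight_assoc,
    associator_naturality_left, Category.assoc, Category.assoc]

variable {V Y Y' Z : T} {d : ℤ} (f : Se T d ⊗ V ⟶ V)

theorem fw_nat (g : Y ⟶ Y') (x : He (Y ⊗ V)) :
    He.map (g ▷ V) (fw f Y x) = fw f Y' (He.map (g ▷ V) x) := by
  induction x using He.ind with
  | zero => simp only [map_zero]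
  | of j x =>
    rw [fw_of, He.map_of, He.map_of, fw_of, opf, opf, whiskerLeft_comp]
    simp only [Category.assoc]
    rw [sw_mid_assoc, whisker_exchange]
  | add x y hx hy => simp only [map_add, hx, hy]

theorem fw_iter_nat (g : Y ⟶ Y') (n : ℕ) (x : He (Y ⊗ V)) :
    He.map (g ▷ V) ((fw f Y)^[n] x) = (fw f Y')^[n] (He.map (g ▷ V) x) :=
  Function.Semiconj.iterate_right (f := He.map (g ▷ V)) (fw_nat f g) n x

variable {f}

theorem fw_bij (h : IsIso (Z ◁ f)) : Function.Bijective (fw f Z) := by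
  let ψ : ∀ j, (Se T j ⟶ Z ⊗ V) →+ (Se T (d + j) ⟶ Z ⊗ V) := fun j => AddMonoidHom.mk'
    (fun x => ((stdEven T).mu d j (d + j) rfl).inv ≫ opf f Z x) fun x y => by
      rw [opf, MonoidalPreadditive.whiskerLeft_add, Preadditive.add_comp, Preadditive.comp_add]
      rfl
  constructor
  · refine (injective_iff_map_eq_zero _).2 fun x hx => He.ext_cp fun j => ?_
    have h3 := He.cp_hom (φ := fw f Z) (ψ := ψ) (fw_of f Z) j x
    rw [hx, map_zero] at h3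
    have h4 : ((stdEven T).mu d j (d + j) rfl).inv ≫ opf f Z (He.cp _ j x) = 0 := h3.symm
    rw [opf, Preadditive.IsIso.comp_left_eq_zero, Preadditive.IsIso.comp_right_eq_zero] at h4
    rw [map_zero]
    exact (tensorLeft (Se T d)).map_eq_zero_iff.1 h4
  · intro y
    induction y using He.ind with
    | zero => exact ⟨0, map_zero _⟩
    | of k y =>
      obtain ⟨j, rfl⟩ : ∃ j, k = d + j := ⟨k - d, by ring⟩
      obtain ⟨x, hx⟩ := whiskerLeft_surj (Se T d)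
        (((stdEven T).mu d j (d + j) rfl).hom ≫ y ≫ inv (Z ◁ f) ≫ (sw _ Z V).inv)
      refine ⟨He.of _ j x, ?_⟩
      rw [fw_of, opf, hx]
      simp only [Category.assoc, Iso.inv_hom_id_assoc, IsIso.inv_hom_id, Category.comp_id]
    | add y y' hy hy' =>
      obtain ⟨x, rfl⟩ := hy
      obtain ⟨x', rfl⟩ := hy'
      exact ⟨x + x', map_add _ _ _⟩

theorem tors_of_two (h0 : ∀ x : He (Z ⊗ V), ∃ n : ℕ, (fw f Z)^[n] x = 0)
    (h1 : ∀ x : He (Z⟦(1 : ℤ)⟧ ⊗ V), ∃ n : ℕ, (fw f (Z⟦(1 : ℤ)⟧))^[n] x = 0) : Tors f Z := by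
  obtain ⟨U⟩ := exists_tel (sqT f)
  have h : IsZero (Z ⊗ U.obj) := isZero_of_even (even_of_tors0 f U _ h0) (oddZero_iff.2 fun j =>
    NM.HZ.iso (even_of_tors0 f U _ h1 j) (Iso.refl _)
      (((tensorRight U.obj).commShiftIso (1 : ℤ)).app Z))
  exact fun k => tors0_of f U _ (isZero_shift_tensor h k)

theorem tors_of_isZero (h : IsZero (Z ⊗ V)) : Tors f Z := fun k x =>
  ⟨0, He.eq_zero (fun _ y => (isZero_shift_tensor h k).eq_of_tgt y 0) x⟩

theorem shift_whiskerLeft {A B : T} {φ : A ⟶ B} (h : Z ◁ φ = 0) (k : ℤ) : Z⟦k⟧ ◁ φ = 0 := by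
  rw [← cancel_epi ((sphTensor k Z).hom ▷ _), ← whisker_exchange, tensor_whiskerLeft, h,
    MonoidalPreadditive.whiskerLeft_zero, zero_comp, comp_zero, zero_comp, comp_zero]

theorem tors_of_trT {n : ℕ} (h : Z ◁ trT (sqT f) 0 n = 0) : Tors f Z := fun k =>
  tors_of_hom _ fun j x => ⟨n, (iter_iff f _ n j x).2
    ((congrArg (x ≫ ·) (shift_whiskerLeft h k)).trans comp_zero)⟩

theorem tz_left {A A' B B' : T} {a : A ⟶ A'} {φ : B ⟶ B'} (h : a ▷ B ≫ A' ◁ φ = 0) (E : T) :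
    a ▷ (E ⊗ B) ≫ A' ◁ (E ◁ φ) = 0 := by
  rw [← cancel_epi (sw E A B).hom, ← sw_mid_assoc, ← sw_right, ← whiskerLeft_comp_assoc, h,
    MonoidalPreadditive.whiskerLeft_zero, zero_comp, comp_zero]

theorem tz_adj {A A' : T} {a : A ⟶ A'} (h : a ▷ _ ≫ A' ◁ f = 0) : a ▷ V ≫ A' ◁ adj f = 0 := by
  rw [adj, ← Category.assoc, ← Category.assoc, whiskerLeft_comp, ← whisker_exchange_assoc,
    tz_left h, comp_zero]

/-- the cofibre of a map through which `f` factors on both sides -/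
theorem tors_cof {C : T} {g : Y ⟶ Y'} {j : Y' ⟶ C} {δ : C ⟶ Y⟦(1 : ℤ)⟧}
    (hT : Triangle.mk g j δ ∈ distTriang T) {h h' : Y' ⊗ (Se T d ⊗ V) ⟶ Y ⊗ V}
    (h1 : Y' ◁ f = h ≫ g ▷ V) (h2 : Y ◁ f = g ▷ _ ≫ h') : Tors f C := by
  have a1 : j ▷ _ ≫ C ◁ f = 0 := by
    have h0 : g ≫ j = 0 := comp_distTriang_mor_zero₁₂ _ hT
    rw [← whisker_exchange, h1, Category.assoc, ← comp_whiskerRight, h0,
      MonoidalPreadditive.zero_whiskerRight, comp_zero]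
  have a2 : δ ▷ _ ≫ Y⟦(1 : ℤ)⟧ ◁ f = 0 := by
    have h0 : δ ≫ g⟦(1 : ℤ)⟧' = 0 := comp_distTriang_mor_zero₃₁ _ hT
    have h3 : (δ ≫ (sphTensor 1 Y).inv) ≫ Sph T 1 ◁ g = 0 := by
      rw [← cancel_mono (sphTensor 1 Y').hom, Category.assoc, Category.assoc,
        sphTensor_naturality, Iso.inv_hom_id_assoc, h0, zero_comp]
    have h4 : δ = (δ ≫ (sphTensor 1 Y).inv) ≫ (sphTensor 1 Y).hom := by simp
    rw [h4, comp_whiskerRight, Category.assoc, ← whisker_exchange, tensor_whiskerLeft, h2,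
      whiskerLeft_comp]
    simp only [Category.assoc]
    rw [← associator_naturality_middle_assoc, ← comp_whiskerRight_assoc, h3,
      MonoidalPreadditive.zero_whiskerRight, zero_comp]
  obtain ⟨z, hz⟩ : ∃ z : C ⊗ V ⟶ Y' ⊗ (Se T (-d) ⊗ V), C ◁ adj f = z ≫ j ▷ _ :=
    Triangle.coyoneda_exact₂ _ (dist_whiskerRight _ (rot_of_distTriang _ hT)) (C ◁ adj f)
      ((whisker_exchange _ _).trans (tz_adj a2))
  refine tors_of_trT (n := 2) ?_
  change C ◁ ((𝟙 V ≫ adj f) ≫ Se T (-d) ◁ adj f) = 0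
  rw [Category.id_comp, whiskerLeft_comp, hz, Category.assoc, tz_left (tz_adj a1), comp_zero]

/-! ### Equivalences -/

/-- `(Y ⊗ V)⟦1⟧` -/
def shI (Y V : T) : (Y ⊗ Sph T 1) ⊗ V ≅ (Y ⊗ V)⟦(1 : ℤ)⟧ :=
  whiskerRightIso (tensorSph 1 Y) V ≪≫ ((tensorRight V).commShiftIso (1 : ℤ)).app Y

theorem oddZero_tensor_iff :
    OddZero (Y ⊗ V) ↔ ∀ (j : ℤ) (x : Se T j ⟶ (Y ⊗ Sph T 1) ⊗ V), x = 0 :=
  oddZero_iff.trans (forall_congr' fun _ => ⟨fun h => NM.HZ.iso h (Iso.refl _) (shI Y V).symm,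
    fun h => NM.HZ.iso h (Iso.refl _) (shI Y V)⟩)

theorem keq_iff_left {K : T} {g : Y ⟶ Y'} : KEq (K ⊗ Z) g ↔ KEq Z (K ◁ g) := by
  obtain ⟨C, j, δ, hT⟩ := distinguished_cocone_triangle g
  exact ((keq_iff_acyclic hT).trans ⟨fun h => (zero_of_acyc h).of_iso (β_ _ _),
    fun h => acyc_of_zero (IsZero.of_iso h (β_ _ _))⟩).trans
      (keq_iff_acyclic (dist_whiskerLeft K hT)).symm

theorem keq_tensor_left {g : Y ⟶ Y'} (h : KEq Z g) (K : T) : KEq (K ⊗ Z) g :=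
  keq_iff_left.2 (h.whiskerLeft K)

theorem isIso_of_keq {K : T} {g : Y ⟶ Y'} (h : KEq K g) (hY : IsLocal K Y) (hY' : IsLocal K Y') :
    IsIso g :=
  ⟨h.ext hY (𝟙 _), h.comp_ext hY _, h.hom_ext hY' (by
    rw [← Category.assoc, h.comp_ext, Category.id_comp, Category.comp_id])⟩

section U

variable (U : STel f) {g : Y ⟶ Y'}

theorem surj_of_keq (h : KEq U.obj g) (y : He (Y' ⊗ V)) :
    ∃ (n : ℕ) (x : He (Y ⊗ V)), (fw f Y')^[n] y = He.map (g ▷ V) x := by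
  obtain ⟨C, j, δ, hT⟩ := distinguished_cocone_triangle g
  obtain ⟨n, hn⟩ := U.tors0 C (IsZero.of_iso ((keq_iff_acyclic hT).1 h) (β_ _ _))
    (He.map (j ▷ V) y)
  obtain ⟨x, hx⟩ := He.exact (dist_whiskerRight V hT) _ ((fw_iter_nat f j n y).trans hn)
  exact ⟨n, x, hx.symm⟩

theorem ker_of_keq (h : KEq U.obj g) (x : He (Y ⊗ V)) (hx : He.map (g ▷ V) x = 0) :
    ∃ n : ℕ, (fw f Y)^[n] x = 0 := by
  obtain ⟨C, i, δ, hT⟩ := distinguished_cocone_triangle₁ g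
  obtain ⟨z, hz⟩ := He.exact (dist_whiskerRight V hT) x hx
  obtain ⟨n, hn⟩ := U.tors0 C (IsZero.of_iso ((acyclic_iff_isIso hT).2 h) (β_ _ _)) z
  exact ⟨n, by rw [← hz]; exact (fw_iter_nat f i n z).symm.trans (by rw [hn, map_zero])⟩

theorem odd_of_keq (h : KEq U.obj g) (hi : IsIso (Y' ◁ f)) (o : OddZero (Y ⊗ V)) :
    OddZero (Y' ⊗ V) := by
  refine oddZero_tensor_iff.2 fun j y => ?_
  obtain ⟨n, x, hx⟩ := surj_of_keq U (h.whiskerRight (Sph T 1)) (He.of _ j y)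
  rw [He.eq_zero (oddZero_tensor_iff.1 o) x, map_zero] at hx
  exact He.of_eq_zero.1 ((fw_bij (keq_tensor (K := Y') hi)).1.iterate n
    (hx.trans (iterate_map_zero _ n).symm))

/-- **The criterion**: kernel and cokernel on the even homotopy are `f`-power torsion. -/
theorem keq_of_even (o : OddZero (Y ⊗ V)) (o' : OddZero (Y' ⊗ V))
    (hs : ∀ y : He (Y' ⊗ V), ∃ (n : ℕ) (x : He (Y ⊗ V)), (fw f Y')^[n] y = He.map (g ▷ V) x)
    (hk : ∀ x : He (Y ⊗ V), He.map (g ▷ V) x = 0 → ∃ n : ℕ, (fw f Y)^[n] x = 0) :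
    KEq U.obj g := by
  obtain ⟨C, i, δ, hT⟩ := distinguished_cocone_triangle₁ g
  refine (acyclic_iff_isIso hT).1 (IsZero.of_iso ((U.iff C).2 (tors_of_two (fun z => ?_)
    fun z => ?_)) (β_ _ _))
  · obtain ⟨n, hn⟩ := hk (He.map (i ▷ V) z) (by
      have h0 : i ≫ g = 0 := comp_distTriang_mor_zero₁₂ _ hT
      rw [He.map_map, ← comp_whiskerRight, h0, MonoidalPreadditive.zero_whiskerRight,
        He.map_zero'])
    obtain ⟨w, hw⟩ := He.exact (inv_rot_of_distTriang _ (dist_whiskerRight V hT)) _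
      ((fw_iter_nat f i n z).trans hn)
    exact ⟨n, hw.symm.trans ((congrArg _ (He.eq_zero (fun l => (TA.Ou.hz_sh (a := 2 * l + 1)
      (k := -1) (b := 2 * l) (by ring) (o' _ ⟨l, rfl⟩)).iso (P257.H314.sI T l).symm (Iso.refl _))
        w)).trans (map_zero _))⟩
  · have hT' := dist_whiskerRight V (rot_of_distTriang _ hT)
    obtain ⟨y, rfl⟩ := He.map_surj (surj_even hT' o) z
    obtain ⟨n, x, hx⟩ := hs y
    refine ⟨n, (fw_iter_nat f δ n y).symm.trans ?_⟩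
    have h0 : g ≫ δ = 0 := comp_distTriang_mor_zero₂₃ _ hT
    rw [hx, He.map_map, ← comp_whiskerRight, h0, MonoidalPreadditive.zero_whiskerRight,
      He.map_zero']

theorem acyc_of_isZero (K : T) (h : IsZero (Z ⊗ V)) : Acyclic (K ⊗ U.obj) Z :=
  acyc_of ((U.iff Z).2 (tors_of_isZero h))

theorem isZero_of_V {i : 𝟙_ T ⟶ V} (m : P257.H314.UProd V i) (h : IsZero ((Z ⊗ V) ⊗ U.obj)) :
    IsZero (Z ⊗ U.obj) := by
  refine (U.iff Z).2 fun k x => ?_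
  obtain ⟨n, hn⟩ := U.tors0 (Z⟦k⟧ ⊗ V) ((isZero_shift_tensor (h.of_iso (α_ _ _ _).symm) k).of_iso
    (α_ _ _ _)) (He.map (((ρ_ _).inv ≫ Z⟦k⟧ ◁ i) ▷ V) x)
  have h1 : ((ρ_ _).inv ≫ Z⟦k⟧ ◁ i) ▷ V ≫ (α_ _ _ _).hom ≫ Z⟦k⟧ ◁ m.m = 𝟙 _ := by
    rw [comp_whiskerRight, Category.assoc, associator_naturality_middle_assoc, ← whiskerLeft_comp,
      m.left_unit]
    simp
  refine ⟨n, ?_⟩
  rw [← He.map_id ((fw f _)^[n] x), ← h1, ← He.map_map, fw_iter_nat, hn, map_zero]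

theorem keq_of_V {i : 𝟙_ T ⟶ V} (m : P257.H314.UProd V i) (K : T) (h : KEq (V ⊗ U.obj) g) :
    KEq (K ⊗ U.obj) g := by
  obtain ⟨C, j, δ, hT⟩ := distinguished_cocone_triangle g
  exact (keq_iff_acyclic hT).2 (acyc_of (isZero_of_V U m
    ((zero_of_acyc ((keq_iff_acyclic hT).1 h)).of_iso (whiskerRightIso (β_ _ _) _))))

end U

/-! ### Modules -/

section mod

variable {R N N' : T} [MonObj R] {w : Se T d ⟶ R}

theorem keq_of_lin {a : ModStr R N} {a' : ModStr R N'} {φ : N ⟶ N'} (hφ : a.IsLinear a' φ)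
    (h : KEq (R ⊗ Z) φ) : KEq Z φ := by
  have h1 : IsIso (Z ◁ (R ◁ φ)) := keq_iff_left.1 h
  have h2 : ∀ {B : T} (b : ModStr R B), ModStr.unitMap R B ≫ b.act = 𝟙 B := fun b => by
    rw [ModStr.unitMap, Category.assoc, b.one_act, Iso.inv_hom_id]
  have h3 : φ ≫ ModStr.unitMap R N' = ModStr.unitMap R N ≫ R ◁ φ := by
    rw [ModStr.unitMap, ModStr.unitMap, leftUnitor_inv_naturality_assoc, whisker_exchange,
      Category.assoc]
  refine ⟨Z ◁ ModStr.unitMap R N' ≫ inv (Z ◁ (R ◁ φ)) ≫ Z ◁ a.act, ?_, ?_⟩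
  · rw [← whiskerLeft_comp_assoc, h3, whiskerLeft_comp_assoc, IsIso.hom_inv_id_assoc,
      ← whiskerLeft_comp, h2, whiskerLeft_id]
  · rw [Category.assoc, Category.assoc, ← whiskerLeft_comp, show a.act ≫ φ = _ from hφ,
      whiskerLeft_comp, IsIso.inv_hom_id_assoc, ← whiskerLeft_comp, h2, whiskerLeft_id]

theorem braid_Se (d : ℤ) : (β_ (Se T d) (Se T d)).hom = 𝟙 _ := by
  rw [← cancel_mono ((stdEven T).mu d d (d + d) rfl).hom, mu_comm _ d d _ rfl rfl, Category.id_comp]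

theorem mulR_tensor (a : ModStr R N) (w : Se T d ⟶ R) :
    TD.mulR (a.tensorRight (Se T d)) w = TD.mulR a w ▷ Se T d := by
  simp only [TD.mulR, ModStr.tensorRight, BraidedCategory.braiding_tensor_left_hom, braid_Se,
    comp_whiskerRight]
  monoidal

variable (hw : f ≫ (λ_ V).inv ≫ η[R] ▷ V = w ▷ V)

include hw

theorem sw_f (a : ModStr R N) :
    (sw _ N V).hom ≫ N ◁ f = w ▷ (N ⊗ V) ≫ (a.tensorRight V).act := by
  rw [TD.whiskerLeft_eq a hw, TD.mulR, sw_hom]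
  simp only [Category.assoc, Iso.hom_inv_id_assoc, ModStr.tensorRight]
  rw [← comp_whiskerRight, SymmetricCategory.symmetry_assoc, comp_whiskerRight,
    associator_inv_naturality_left_assoc]

/-- on a module the self map acts as the multiplication by its class -/
theorem fw_of_mod (a : ModStr R N) (j : ℤ) (x : Se T j ⟶ N ⊗ V) :
    fw f N (He.of _ j x) = He.of _ (d + j) (gsmul (a.tensorRight V) rfl w x) := by
  rw [fw_of, opf, sw_f hw a, gsmul, EvenSpheres.ext, tensorHom_def']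
  simp only [Category.assoc]

theorem fw_eq_smul (a : ModStr R N) (x : He (N ⊗ V)) : fw f N x =
    (letI := hModule (E := stdEven T) (a.tensorRight V); HRing.of (stdEven T) R d w • x) := by
  let := hModule (E := stdEven T) (a.tensorRight V)
  induction x using He.ind with
  | zero => rw [map_zero, smul_zero]
  | of j x => exact (fw_of_mod hw a j x).trans (of_smul_of _ rfl w x).symm
  | add x y hx hy => rw [map_add, smul_add, hx, hy]

variable (U : STel f)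

theorem keq_mulR (a : ModStr R N) : KEq U.obj (TD.mulR a w) := by
  obtain ⟨C, j, δ, hT⟩ := distinguished_cocone_triangle (TD.mulR a w)
  refine (keq_iff_acyclic hT).2 (IsZero.of_iso ((U.iff C).2 (tors_cof hT (h' := (α_ _ _ _).inv)
    (TD.whiskerLeft_eq a hw) ?_)) (β_ _ _))
  rw [TD.whiskerLeft_eq (a.tensorRight _) hw, mulR_tensor, associator_inv_naturality_left]

theorem keq_f : KEq (R ⊗ U.obj) f := by
  rw [keq_iff_left, TD.whiskerLeft_eq (ModStr.self R) hw]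
  exact (KEq.of_isIso _).comp ((keq_mulR hw U _).whiskerRight V)

theorem isIso_of_local (hV : IsFin V) (hY : IsLocal (R ⊗ U.obj) Y) : IsIso (Y ◁ f) :=
  isIso_of_keq ((keq_f hw U).whiskerLeft Y)
    ((((tensLoc_sph _).of_iso (seI T d).symm).tensor (tensLoc_fin hV)) hY) (tensLoc_fin hV hY)

theorem fw_bij_of_local (hV : IsFin V) (hY : IsLocal (R ⊗ U.obj) Y) :
    Function.Bijective (fw f Y) := fw_bij (isIso_of_local hw U hV hY)

omit hw in
theorem local_of_isIso (a : ModStr R N) (h : IsIso (N ◁ f)) (i : 𝟙_ T ⟶ V)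
    (hi : ∀ {A : T} (x : A ⟶ N), x ≫ (ρ_ N).inv ≫ N ◁ i = 0 → x = 0) :
    IsLocal (R ⊗ U.obj) N := by
  intro Z hZ g
  have h1 := zero_of_acyc hZ
  have h2 := U.iso N h
  rw [← a.unitMap_ext g, hi (a.ext g) ?_, comp_zero]
  rw [← Preadditive.IsIso.comp_right_eq_zero _ (N ◁ U.ι), Category.assoc, Category.assoc,
    ← whiskerLeft_comp, rightUnitor_inv_naturality_assoc, ← whisker_exchange,
    h1.eq_of_src (_ ▷ U.obj) 0, comp_zero, comp_zero]

variable (Λ : LocFunctor (R ⊗ U.obj)) (a : ModStr R N)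

include a

omit hw in
theorem keq_u : KEq U.obj (Λ.u N) := keq_of_lin (Λ.isLinear_u a) (Λ.keq N)

omit hw in
theorem surj_u (y : He (Λ.L.obj N ⊗ V)) :
    ∃ (n : ℕ) (x : He (N ⊗ V)), (fw f _)^[n] y = He.map (Λ.u N ▷ V) x :=
  surj_of_keq U (keq_u U Λ a) y

omit hw in
theorem ker_u (x : He (N ⊗ V)) (hx : He.map (Λ.u N ▷ V) x = 0) : ∃ n : ℕ, (fw f N)^[n] x = 0 :=
  ker_of_keq U (keq_u U Λ a) x hx

theorem odd_u (hV : IsFin V) (o : OddZero (N ⊗ V)) : OddZero (Λ.L.obj N ⊗ V) :=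
  odd_of_keq U (keq_u U Λ a) (isIso_of_local hw U hV (Λ.isLocal N)) o

end mod

/-! ### Reductions -/

section red

variable {R K N B V' : T} [MonObj R]

/-- infinitely `w`-divisible maps to a local module vanish -/
theorem eq_zero_of_div (a : ModStr R N) (hN : IsLocal K N) {w : B ⟶ R}
    (hK : ∀ Z, IsZero (Z ⊗ V') → Acyclic K Z) (hw : (R ◁ w ≫ μ[R]) ▷ V' = 0) (P : T → Prop)
    (h : ∀ A, P A → ∀ x : A ⟶ N, ∃ (A' : T) (e : A ⟶ B ⊗ A') (x' : A' ⟶ N), P A' ∧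
      x = e ≫ B ◁ x' ≫ w ▷ N ≫ a.act) {A : T} (hA : P A) (x : A ⟶ N) : x = 0 := by
  choose A' e x' hP hx using h
  let s : ℕ → Σ' (A : T) (_ : P A), A ⟶ N := fun n =>
    Nat.rec ⟨A, hA, x⟩ (fun _ y => ⟨A' _ y.2.1 y.2.2, hP _ _ _, x' _ _ _⟩) n
  let t : ∀ n, R ⊗ (s n).1 ⟶ R ⊗ (s (n + 1)).1 := fun n =>
    R ◁ e _ (s n).2.1 (s n).2.2 ≫ (α_ _ _ _).inv ≫ (R ◁ w ≫ μ[R]) ▷ A' _ (s n).2.1 (s n).2.2
  obtain ⟨U⟩ := exists_tel t
  have key : ∀ {A A' : T} (e : A ⟶ B ⊗ A') (x' : A' ⟶ N),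
      (R ◁ e ≫ (α_ _ _ _).inv ≫ (R ◁ w ≫ μ[R]) ▷ A') ≫ a.ext x' =
        a.ext (e ≫ B ◁ x' ≫ w ▷ N ≫ a.act) := fun e x' => by
    simp only [ModStr.ext, Category.assoc, whiskerLeft_comp]
    rw [← whisker_exchange_assoc, comp_whiskerRight, Category.assoc, a.mul_act,
      associator_naturality_middle_assoc, associator_naturality_right_assoc,
      Iso.inv_hom_id_assoc]
  obtain ⟨l, hl⟩ := U.exists_desc (fun n => a.ext (s n).2.2) fun n =>
    (key _ _).trans (congrArg _ (hx _ (s n).2.1 (s n).2.2).symm)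
  have key2 : ∀ {A A' : T} (e : A ⟶ B ⊗ A'),
      (R ◁ e ≫ (α_ _ _ _).inv ≫ (R ◁ w ≫ μ[R]) ▷ A') ▷ V' = 0 := fun {A A'} e => by
    have h1 : (R ◁ w ≫ μ[R]) ▷ (A' ⊗ V') = 0 := by
      rw [← cancel_epi (sw A' _ V').hom, ← sw_mid, hw, MonoidalPreadditive.whiskerLeft_zero,
        zero_comp, comp_zero]
    rw [comp_whiskerRight, comp_whiskerRight, ← cancel_mono (α_ _ _ _).hom, Category.assoc,
      Category.assoc, associator_naturality_left, h1]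
    simp
  have h0 : IsZero (U.obj ⊗ V') := (U.tensR V').isZero_of_proZero fun n =>
    ⟨1, (Category.id_comp _).trans (key2 _)⟩
  have h1 : a.ext x = 0 := (hl 0).symm.trans (by rw [hN (hK _ h0) l, comp_zero])
  rw [← a.unitMap_ext x, h1, comp_zero]

variable {w : Se T d ⟶ R} (hw : f ≫ (λ_ V).inv ≫ η[R] ▷ V = w ▷ V) {j : V ⟶ V'}
  {δ : V' ⟶ (Se T d ⊗ V)⟦(1 : ℤ)⟧} (hT : Triangle.mk f j δ ∈ distTriang T)
  (hK : ∀ Z, IsZero (Z ⊗ V') → Acyclic K Z) (h0 : (R ◁ w ≫ μ[R]) ▷ V' = 0) (a : ModStr R N)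
  (hN : IsLocal K (N ⊗ V))

include hw hT hK h0 a hN

theorem eq_zero_step (P : T → Prop) (hP : ∀ A, P A → P (Se T (-d) ⊗ A))
    (hz : ∀ A, P A → ∀ x : A ⟶ N ⊗ V', x = 0) {A : T} (hA : P A) (x : A ⟶ N ⊗ V) : x = 0 := by
  refine eq_zero_of_div (a.tensorRight V) hN hK h0 P (fun A hA x => ?_) hA x
  obtain ⟨y, rfl⟩ : ∃ y : A ⟶ N ⊗ (Se T d ⊗ V), x = y ≫ N ◁ f :=
    Triangle.coyoneda_exact₂ _ (dist_whiskerLeft N hT) x (hz A hA _)
  let e : A ≅ Se T d ⊗ (Se T (-d) ⊗ A) :=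
    (λ_ A).symm ≪≫ whiskerRightIso (ee T d ≪≫ β_ _ _) A ≪≫ α_ _ _ _
  obtain ⟨x', hx'⟩ := whiskerLeft_surj (Se T d) (e.inv ≫ y ≫ (sw _ N V).inv)
  refine ⟨_, e.hom, x', hP A hA, ?_⟩
  rw [hx', ← sw_f hw a]
  simp only [Category.assoc, Iso.hom_inv_id_assoc, Iso.inv_hom_id_assoc]

theorem even_step (hz : ∀ (l : ℤ) (x : Se T l ⟶ N ⊗ V'), x = 0) (l : ℤ) (x : Se T l ⟶ N ⊗ V) :
    x = 0 :=
  eq_zero_step hw hT hK h0 a hN (fun A => ∃ l, Nonempty (A ≅ Se T l))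
    (fun _ ⟨l, ⟨e⟩⟩ => ⟨_, ⟨whiskerLeftIso _ e ≪≫ (stdEven T).mu (-d) l _ rfl⟩⟩)
    (fun _ ⟨l, ⟨e⟩⟩ => NM.HZ.iso (hz l) e.symm (Iso.refl _)) ⟨l, ⟨Iso.refl _⟩⟩ x

theorem oddZero_step (o : OddZero (N ⊗ V')) : OddZero (N ⊗ V) :=
  oddZero_tensor_iff.2 (even_step hw hT hK h0 (a.tensorRight _)
    ((hN.shift 1).of_iso (shI N V).symm) (oddZero_tensor_iff.1 o))

end red

/-! ### The tower -/

section twr

variable {D : MUData T} {p : ℕ} (W : TD.Twr D p) {R K N : T} [MonObj R] (b : D.R ⟶ R) [IsMonHom b]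
  (U₁ : STel W.f1) (U₂ : STel W.f2)

theorem acyc1 (K : T) (h : IsZero (Z ⊗ W.M)) : Acyclic (K ⊗ U₁.obj) Z := acyc_of_isZero U₁ K h

theorem acyc2 (K : T) (h : IsZero (Z ⊗ W.V1)) : Acyclic (K ⊗ U₂.obj) Z := acyc_of_isZero U₂ K h

theorem pComplete_of (hK : ∀ Z, IsZero (Z ⊗ W.M) → Acyclic K Z) (hY : IsLocal K Y) :
    PComplete p Y := fun Z hZ => hY (hK Z ((isIso_p_iff W.distM Z).1 hZ))

theorem pComplete1 (hY : IsLocal (K ⊗ U₁.obj) Y) : PComplete p Y :=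
  pComplete_of W (fun _ => acyc1 W U₁ K) hY

theorem pComplete2 (hY : IsLocal (K ⊗ U₂.obj) Y) : PComplete p Y :=
  pComplete_of W (fun _ h => acyc2 W U₂ K (W.zero1_of_zeroM h)) hY

theorem oddZero_of_mod (hY : PComplete p Y) (o : OddZero (Y ⊗ W.M)) : OddZero Y :=
  fun k hk => hY.hom_eq_zero_of_mod W.distM (o k hk)

theorem v1_V1 : (R ◁ vK D p b 1 ≫ μ[R]) ▷ W.V1 = 0 :=
  W.ann2 b ⟨fun i => if h : i = 1 then eqToHom (by rw [h]) else 0, by
    rw [Finset.sum_range_succ, Finset.sum_range_succ, Finset.sum_range_zero]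
    beta_reduce
    rw [dif_neg (by norm_num), dif_pos rfl, zero_comp, add_zero, zero_add, eqToHom_refl,
      Category.id_comp]⟩

include b

theorem oddZero_M (a : ModStr R N) (hN : IsLocal (K ⊗ U₂.obj) N) (o : OddZero (N ⊗ W.V1)) :
    OddZero (N ⊗ W.M) :=
  oddZero_step (W.hur1 b) W.dist1 (fun _ => acyc2 W U₂ K) (v1_V1 W b) a (tensLoc_fin W.finM hN) o

theorem bij1 (hY : IsLocal (R ⊗ U₁.obj) Y) : Function.Bijective (fw W.f1 Y) :=
  fw_bij_of_local (W.hur1 b) U₁ W.finM hY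

theorem bij2 (hY : IsLocal (R ⊗ U₂.obj) Y) : Function.Bijective (fw W.f2 Y) :=
  fw_bij_of_local (W.hur2 b) U₂ W.fin1 hY

/-- **Row HT.** -/
theorem yIn (Λ : LocFunctor (R ⊗ U₁.obj)) {X₁ X₂ : T} (a : ModStr R X₂)
    (h₁ : IsLocal (R ⊗ U₁.obj) X₁) (h₂ : IsLocal (R ⊗ U₂.obj) X₂) (o : OddZero (X₂ ⊗ W.V1)) :
    YIn W X₁ (Λ.u X₂) :=
  have o1 := oddZero_M W b U₂ a h₂ o
  have o2 := odd_u (W.hur1 b) U₁ Λ a W.finM o1
  ⟨bij1 W b U₁ h₁, bij1 W b U₁ (Λ.isLocal _), surj_u U₁ Λ a, ker_u U₁ Λ a, o1, o2,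
    oddZero_of_mod W (pComplete1 W U₁ (Λ.isLocal _)) o2⟩

end twr

end Vale.Agent.P221X.EXI
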