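import Vale.Agent.P221X.EXI.KeqT
import Vale.Agent.P221X.EXI.Ht
import Vale.Agent.P221X.TD.TwrSt

/-!
# P221X, block EXIST, row KEQ: the local quotients at the heights `1` and `2`
-/

open CategoryTheory MonoidalCategory MonObj Limits Pretriangulated

set_option linter.unusedSectionVars false

universe u

noncomputable section

namespace Vale.Agent.P221X.EXI

open Vale.Agent.P251 Vale.Agent.P251.S Vale.Agent.P251.T Vale.Agent.P251.M Vale.Agent.P251.I
  Vale.Agent.P257.H702 Vale.Agent.P221X.TC Keq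

variable {T : Type u} [Category.{0} T] [Preadditive T] [HasZeroObject T]
    [HasShift T ℤ] [∀ n : ℤ, (shiftFunctor T n).Additive] [Pretriangulated T] [IsTriangulated T]
    [MonoidalCategory T] [SymmetricCategory T] [TensorTriangulated T] [MonoidalClosed T]
    [HasCoproducts.{0} T] [HasProducts.{0} T] [StableCat T]
  {D : MUData T} {p : ℕ} [hp : Fact p.Prime] {P : T} [MonObj P] [IsCommMonObj P]
  {b : D.R ⟶ P} [IsMonHom b]

theorem Keq.p_V {V : T} {i : 𝟙_ T ⟶ V} (m : P257.H314.UProd V i) (h : (p : ℤ) • i = 0)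
    (Z : T) : ((p : ℤ) • 𝟙 Z) ▷ V = 0 := by
  have h1 : ((p : ℤ) • i) ▷ V = (p : ℤ) • i ▷ V := (tensorRight V).map_zsmul
  have h2 : (p : ℤ) • 𝟙 V = 0 := by
    rw [← cancel_epi (λ_ V).hom, Preadditive.comp_zsmul, Category.comp_id, ← m.left_unit,
      ← Preadditive.zsmul_comp, ← h1, h, MonoidalPreadditive.zero_whiskerRight, zero_comp,
      comp_zero]
  have h3 : ((p : ℤ) • 𝟙 Z) ▷ V = Z ◁ ((p : ℤ) • 𝟙 V) :=
    ((tensorRight V).map_zsmul.trans (by simp)).trans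
      ((tensorLeft Z).map_zsmul.trans (by simp : _ = (p : ℤ) • 𝟙 (Z ⊗ V))).symm
  rw [h3, h2, MonoidalPreadditive.whiskerLeft_zero]

theorem dv_eq (j : ℕ) : (p ^ (j + 1) : ℤ) - 1 = dv p j := by
  rw [dv, Nat.cast_sub (Nat.one_le_pow _ _ hp.out.pos)]
  simp

namespace BX

variable (X : BX p b) (W : TD.Twr D p)

/-- the class `v_{j+1}` on the sphere of the tower -/
def vs (j : ℕ) : Sv T p (j + 1) ⟶ P := eqToHom (congrArg (stdEven T).S (dv_eq j)) ≫ X.v j

theorem of_vs (j : ℕ) : HRing.of (stdEven T) P ((p ^ (j + 1) : ℤ) - 1) (X.vs j) =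
    X.Φ (MvPolynomial.X j) := by
  have key : ∀ (a c : ℤ) (h : a = c) (x : (stdEven T).S c ⟶ P),
      HRing.of (stdEven T) P a (eqToHom (congrArg (stdEven T).S h) ≫ x) =
        HRing.of (stdEven T) P c x := by
    rintro a _ rfl x
    rw [eqToHom_refl, Category.id_comp]
  rw [X.Φ_X]
  exact key _ _ (dv_eq j) _

theorem mulR_vs (j : ℕ) : TD.mulR (ModStr.self P) (X.vs j) =
    P ◁ eqToHom (congrArg (stdEven T).S (dv_eq j)) ≫ X.mv j := by
  rw [TD.mulR, ← BraidedCategory.braiding_naturality_right_assoc, vs,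
    MonoidalCategory.whiskerLeft_comp, Category.assoc]
  exact congrArg (_ ≫ _ ≫ ·) (IsCommMonObj.mul_comm P)

theorem isIso_mv {V : T} {j : ℕ} {f : Sv T p (j + 1) ⊗ V ⟶ V}
    (hw : f ≫ (λ_ V).inv ≫ η[P] ▷ V = X.vs j ▷ V) (U : STel f) (Z : T) :
    IsIso (X.mv j ▷ (Z ⊗ U.obj)) := by
  have h1 := keq_mulR hw U (ModStr.self P)
  rw [mulR_vs] at h1
  exact wr_iso_iff.2 (keq_tensor_left ((KEq.of_isIso _).of_comp_left h1) Z)

theorem mv_V1 : X.mv 0 ▷ W.V1 = 0 := by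
  have h1 := W.ann2 b (InI.mono (by omega : 1 ≤ 2) (TD.inI_haz b X.lawΦ 0 (X.of_vs 0)))
  have h2 : vK D p b 1 ▷ W.V1 = 0 := TD.whisker_zero W.m2 (TD.hcls_v W.st2.tow b 1 (by omega))
  rw [wr_sub, h2, zero_sub, neg_eq_zero, vs, comp_whiskerRight] at h1
  have h3 : X.v 0 ▷ W.V1 = 0 := by
    rwa [← cancel_epi (eqToHom (congrArg (stdEven T).S (dv_eq (p := p) 0)) ▷ W.V1), comp_zero]
  have h4 := TD.whiskerLeft_self (f := 0) (w := X.v 0) (V := W.V1) (by rw [h3, zero_comp])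
  rw [MonoidalPreadditive.whiskerLeft_zero] at h4
  rw [← cancel_epi (α_ P _ W.V1).inv, comp_zero]
  exact h4.symm

theorem p_iM : (p : ℤ) • W.iM = 0 := by
  have h : ((p : ℤ) • 𝟙 (𝟙_ T)) ≫ W.iM = 0 := comp_distTriang_mor_zero₁₂ _ W.distM
  simpa using h

/-- **the local quotient at height `1`** -/
theorem quoT1 (U : STel W.f1) (K : T) (Λ : LocFunctor (K ⊗ U.obj)) : Nonempty (Quo Λ X.vv) :=
  X.quo_of_keq Λ (keq_of_V U W.m1 K (X.keq1 (wr_zero (p_V W.m1 (p_iM W) P) _)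
    (X.isIso_mv (W.hur1_haz b X.lawΦ (X.of_vs 0)) U _)))

/-- **the local quotient at height `2`** -/
theorem quoT2 (U : STel W.f2) (K : T) (Λ : LocFunctor (K ⊗ U.obj)) : Nonempty (Quo Λ X.vv) :=
  X.quo_of_keq Λ (keq_of_V U W.m2 K (X.keq2
    (wr_zero (p_V W.m2 (by rw [← Preadditive.zsmul_comp, p_iM W, zero_comp]) P) _)
    (wr_zero (X.mv_V1 W) _) (X.isIso_mv (W.hur2_haz b X.lawΦ (X.of_vs 1)) U _)))

end BX

end Vale.Agent.P221X.EXI
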