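import Vale.Agent.P221X.EXI.Gam
import Vale.Agent.P221X.EXI.Defs

/-!
# P221X, block EXIST, row KEQ: the local quotient in the setting `BX`
-/

open CategoryTheory MonoidalCategory Limits Pretriangulated

universe u

namespace Vale.Agent.P221X.EXI

open Vale.Agent.P251 Vale.Agent.P251.T Vale.Agent.P251.M Vale.Agent.P251.S Vale.Agent.P251.I Alg

variable {T : Type u} [Category.{0} T] [Preadditive T] [HasZeroObject T] [HasShift T ℤ]
  [∀ n : ℤ, (shiftFunctor T n).Additive] [Pretriangulated T] [IsTriangulated T]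
  [MonoidalCategory T] [SymmetricCategory T] [TensorTriangulated T] [MonoidalClosed T]
  [HasCoproducts.{0} T] [HasProducts.{0} T] [StableCat T]
  {D : MUData T} {p : ℕ} [Fact p.Prime] {P : T} [MonObj P] [IsCommMonObj P]
  {b : D.R ⟶ P} [IsMonHom b] (X : BX p b)

theorem BX.vj_eq (j : ℕ) : vj p X.Φ j = X.v (j + 2) := by
  rw [vj, X.Φ_X]
  exact DirectSum.of_eq_same _ _

theorem BX.quo_of_keq {h : ℕ} {K : T} (Λ : LocFunctor K)
    (hγ : KEq K ((fr P P).ext (Sigma.desc (gam X.mon X.lawΦ : ∀ _ : Ix p h, _)))) :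
    Nonempty (Quo Λ X.vv) := by
  have := EXI.quo_of_keq X.mon X.lawΦ Λ hγ
  rwa [funext X.vj_eq] at this

end Vale.Agent.P221X.EXI
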