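import Vale.Agent.P221X.EXI.KeqA
import Vale.Agent.P221X.EXI.GamX

/-!
# P221X, block EXIST, row KEQ: the local quotient of `P` by `v_3, v_4, …`

If `v_0, …, v_{h-1}` act by zero on `P ⊗ K` and `v_h` acts invertibly (`h ≤ 2`), then the
`K`-localisation of `P` has a retract which is the quotient by `v_3, v_4, …`.
-/

open CategoryTheory MonoidalCategory MonObj Limits Pretriangulated

set_option linter.unusedSectionVars false

universe u

noncomputable section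

namespace Vale.Agent.P221X.EXI

open Vale.Agent.P251 Vale.Agent.P251.S Vale.Agent.P251.T Vale.Agent.P251.M Vale.Agent.P251.F
  Vale.Agent.P251.I EvenSpheres Vale.Agent.P257.H80 Vale.Agent.P221.H246 Vale.Agent.P221.T
  Vale.Agent.P221.T.H520 Alg Keq
open Vale.Agent.P251.X hiding lawOf

variable {T : Type u} [Category.{0} T] [Preadditive T] [HasZeroObject T]
    [HasShift T ℤ] [∀ n : ℤ, (shiftFunctor T n).Additive] [Pretriangulated T] [IsTriangulated T]
    [MonoidalCategory T] [SymmetricCategory T] [TensorTriangulated T] [MonoidalClosed T]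
    [HasCoproducts.{0} T] [HasProducts.{0} T] [StableCat T]
  {D : MUData T} {p : ℕ} [hp : Fact p.Prime] {P : T} [MonObj P] [IsCommMonObj P]
  {b : D.R ⟶ P} [IsMonHom b] {h : ℕ}

namespace Keq

variable {F : SpaceFunctor T} {e : F.S.obj CCF ≅ (stdEven T).L}
  {Φ : MvPolynomial ℕ ℤ →+* HRing (stdEven T) P} {ℓ : Z0 p →+* HRing (stdEven T) P}

theorem Om_smul (W : T) (g : G0 p) (m : MP (stdEven T) P W) :
    Om p b ℓ Φ g • MP.push (stdEven T) (inlM P P) W m =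
      ∑ E ∈ g.support, HRing.of (stdEven T) (P ⊗ P) (dB p E) (wS p b E) •
        MP.push (stdEven T) (inlM P P) W (PhiT ℓ Φ (MvPolynomial.coeff E g) • m) := by
  conv_lhs => rw [g.as_sum, map_sum, Finset.sum_smul]
  refine Finset.sum_congr rfl fun E _ => ?_
  rw [Om_monomial, mul_comm, ← smul_smul, of_wS, MP.push_smul]

theorem bij_gam (hD : MUUniv e D) (hb : IsBPMon p b) (h2 : h ≤ 2) {k : Ix p h → ℤ}
    (c : ∀ x, (stdEven T).S (k x) ⟶ P ⊗ P)
    (hc : ∀ x, HRing.of (stdEven T) (P ⊗ P) (k x) (c x) = Om p b ℓ Φ (b0 p x)) (W : T)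
    (h0 : ∀ i < h, ∀ m : MP (stdEven T) P W, PhiT ℓ Φ (vv0 p i) • m = 0)
    (hv : Function.Bijective fun m : MP (stdEven T) P W => PhiT ℓ Φ (vv0 p h) • m) :
    BijE ((fr P P).ext (Sigma.desc c) ▷ W) := by
  let _ : Module (K0 p) (MP (stdEven T) P W) := Module.compHom _ (PhiT ℓ Φ)
  have h1 := alg0_mod (p := p) (M := MP (stdEven T) P W) h2 h0 hv
  have h3 := MP.bij_basis (gbasisOfBind (E := stdEven T) (A := P) (R := P) (dB p) (wS p b)
    (rbB hD hb).isIso) M.isSphere_std W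
  refine bijE_ext c W ?_
  convert h3.comp h1 using 1
  funext y
  have hs : ∀ {I : Type} (r : I → HRing (stdEven T) (P ⊗ P)) (y y' : I →₀ MP (stdEven T) P W),
      ((y + y').sum fun a m => r a • MP.push (stdEven T) (inlM P P) W m) =
        (y.sum fun a m => r a • MP.push (stdEven T) (inlM P P) W m) +
          y'.sum fun a m => r a • MP.push (stdEven T) (inlM P P) W m := fun r y y' =>
    Finsupp.sum_add_index' (fun a => by rw [map_zero, smul_zero])
      (fun a m m' => by rw [map_add, smul_add])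
  change _ = (colM p h _ y).sum fun E m => HRing.of (stdEven T) (P ⊗ P) (dB p E) (wS p b E) •
    MP.push (stdEven T) (inlM P P) W m
  induction y using Finsupp.induction_linear with
  | zero => rw [map_zero, Finsupp.sum_zero_index, Finsupp.sum_zero_index]
  | add y y' hy hy' => rw [map_add, hs, hs, hy, hy']
  | single x m =>
    rw [Finsupp.sum_single_index (by rw [map_zero, smul_zero]), hc, Om_smul]
    refine Eq.trans ?_ (Finsupp.sum_of_support_subset _ (s := (b0 p x).support)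
      (fun E hE => ?_) _ fun E _ => by rw [map_zero, smul_zero]).symm
    · exact Finset.sum_congr rfl fun E _ => by rw [colM_single]; rfl
    · refine MvPolynomial.mem_support_iff.2 fun h4 => Finsupp.mem_support_iff.1 hE ?_
      rw [colM_single, h4, zero_smul]

theorem comp_p (W : T) (n : ℤ) (m : MP (stdEven T) P W) :
    MP.comp _ P W n (PhiT ℓ Φ (vv0 p 0) • m) = MP.comp _ P W n m ≫ ((p : ℤ) • 𝟙 P) ▷ W := by
  have h1 : ((p : ℤ) • 𝟙 P) ▷ W = (p : ℤ) • 𝟙 (P ⊗ W) :=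
    (tensorRight W).map_zsmul.trans (by simp)
  rw [vv0, map_natCast, Nat.cast_smul_eq_nsmul, map_nsmul, h1, Preadditive.comp_zsmul,
    Category.comp_id, natCast_zsmul]

theorem p_zero {W : T} (h : ((p : ℤ) • 𝟙 P) ▷ W = 0) (m : MP (stdEven T) P W) :
    PhiT ℓ Φ (vv0 p 0) • m = 0 :=
  MP.ext_comp fun n => by rw [comp_p, h, comp_zero, map_zero]

theorem p_bij {W : T} [IsIso (((p : ℤ) • 𝟙 P) ▷ W)] :
    Function.Bijective fun m : MP (stdEven T) P W => PhiT ℓ Φ (vv0 p 0) • m := by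
  refine ⟨fun m m' h => MP.ext_comp fun n => ?_, fun y => ?_⟩
  · have h1 := congrArg (MP.comp _ P W n) h
    dsimp only at h1
    rwa [comp_p, comp_p, cancel_mono] at h1
  · induction y using MP.ind with
    | zero => exact ⟨0, smul_zero _⟩
    | of n y =>
      refine ⟨MP.of _ P W n (y ≫ inv (((p : ℤ) • 𝟙 P) ▷ W)), MP.ext_comp fun n' => ?_⟩
      dsimp only
      rw [comp_p]
      by_cases hn : n = n'
      · subst hn
        rw [MP.comp_of_same, MP.comp_of_same, Category.assoc, IsIso.inv_hom_id, Category.comp_id]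
      · rw [MP.comp_of_ne hn, MP.comp_of_ne hn, zero_comp]
    | add x y hx hy =>
      obtain ⟨x', rfl⟩ := hx
      obtain ⟨y', rfl⟩ := hy
      exact ⟨x' + y', smul_add _ _ _⟩

theorem wr_zero {A B K : T} {g : A ⟶ B} (h : g ▷ K = 0) (Z : T) : g ▷ (K ⊗ Z) = 0 := by
  rw [whiskerRight_tensor, h, MonoidalPreadditive.zero_whiskerRight, zero_comp, comp_zero]

theorem wr_iso {A B K : T} {g : A ⟶ B} (h : IsIso (g ▷ K)) (Z : T) : IsIso (g ▷ (K ⊗ Z)) := by
  rw [whiskerRight_tensor]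
  infer_instance

theorem wr_iso_iff {A B K : T} {g : A ⟶ B} : IsIso (g ▷ K) ↔ KEq K g := by
  have h4 : K ◁ g = (β_ K A).hom ≫ g ▷ K ≫ (β_ K B).inv := by
    rw [← BraidedCategory.braiding_naturality_right_assoc]
    simp
  change _ ↔ IsIso (K ◁ g)
  rw [h4, isIso_comp_left_iff, isIso_comp_right_iff]

end Keq

namespace BX

variable (X : BX p b)

/-- the multiplication by `v_{j+1}` -/
abbrev mv (j : ℕ) : P ⊗ (stdEven T).S (dv p j) ⟶ P := (ModStr.self P).ext (X.v j)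

theorem PhiT_succ (j : ℕ) : PhiT (ell X.mon) X.Φ (vv0 p (j + 1)) =
    HRing.of (stdEven T) P (dv p j) (X.v j) := by
  rw [vv0, PhiT_X, X.Φ_X]

/-- the linear extension of the family `t^E (η v)^F` -/
abbrev gm (h : ℕ) : P ⊗ (∐ fun x : Ix p h => (stdEven T).S (kx x)) ⟶ P ⊗ P :=
  (fr P P).ext (Sigma.desc (gam X.mon X.lawΦ : ∀ _ : Ix p h, _))

theorem keq_of {K : T} (hK : ∀ W, W = K ∨ W = K ⊗ Sph T 1 → BijE (X.gm h ▷ W)) :
    KEq K (X.gm h) :=
  keq_of_bijE _ K (hK _ (Or.inl rfl)) (hK _ (Or.inr rfl))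

theorem keq0 {K : T} (h0 : IsIso (((p : ℤ) • 𝟙 P) ▷ K)) : KEq K (X.gm 0) :=
  X.keq_of fun W hW => by
    have : IsIso (((p : ℤ) • 𝟙 P) ▷ W) := by
      obtain rfl | rfl := hW
      exacts [h0, wr_iso h0 _]
    exact bij_gam X.hD X.mon (by omega) _ (of_gam X.mon X.lawΦ) W
      (fun i hi => absurd hi (by omega)) p_bij

theorem keq1 {K : T} (h0 : ((p : ℤ) • 𝟙 P) ▷ K = 0) (h1 : IsIso (X.mv 0 ▷ K)) :
    KEq K (X.gm 1) :=
  X.keq_of fun W hW => by
    have h2 : ((p : ℤ) • 𝟙 P) ▷ W = 0 ∧ IsIso (X.mv 0 ▷ W) := by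
      obtain rfl | rfl := hW
      exacts [⟨h0, h1⟩, ⟨wr_zero h0 _, wr_iso h1 _⟩]
    have := h2.2
    refine bij_gam X.hD X.mon (by omega) _ (of_gam X.mon X.lawΦ) W (fun i hi => ?_) ?_
    · obtain rfl : i = 0 := by omega
      exact p_zero h2.1
    · rw [X.PhiT_succ]
      exact smul_bij_of _

theorem keq2 {K : T} (h0 : ((p : ℤ) • 𝟙 P) ▷ K = 0) (h1 : X.mv 0 ▷ K = 0)
    (h2 : IsIso (X.mv 1 ▷ K)) : KEq K (X.gm 2) :=
  X.keq_of fun W hW => by
    have h3 : ((p : ℤ) • 𝟙 P) ▷ W = 0 ∧ X.mv 0 ▷ W = 0 ∧ IsIso (X.mv 1 ▷ W) := by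
      obtain rfl | rfl := hW
      exacts [⟨h0, h1, h2⟩, ⟨wr_zero h0 _, wr_zero h1 _, wr_iso h2 _⟩]
    have := h3.2.2
    refine bij_gam X.hD X.mon le_rfl _ (of_gam X.mon X.lawΦ) W (fun i hi => ?_) ?_
    · obtain rfl | rfl : i = 0 ∨ i = 0 + 1 := by omega
      · exact p_zero h3.1
      · rw [X.PhiT_succ]
        exact smul_zero_of _ h3.2.1
    · rw [X.PhiT_succ]
      exact smul_bij_of _

/-- **KEQ at height `0`** -/
theorem quo0 {K : T} (Λ : LocFunctor K) (h0 : IsIso (((p : ℤ) • 𝟙 P) ▷ K)) :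
    Nonempty (Quo Λ X.vv) :=
  X.quo_of_keq Λ (X.keq0 h0)

theorem quo0' {K : T} (Λ : LocFunctor K) (h0 : IsIso ((p : ℤ) • 𝟙 K)) :
    Nonempty (Quo Λ X.vv) := by
  refine X.quo0 Λ ?_
  have h1 : ((p : ℤ) • 𝟙 P) ▷ K = P ◁ ((p : ℤ) • 𝟙 K) :=
    ((tensorRight K).map_zsmul.trans (by simp)).trans
      ((tensorLeft P).map_zsmul.trans (by simp : _ = (p : ℤ) • 𝟙 (P ⊗ K))).symm
  rw [h1]
  infer_instance

/-- **KEQ at height `1`** -/
theorem quo1 {K : T} (Λ : LocFunctor K) (h0 : ((p : ℤ) • 𝟙 P) ▷ K = 0)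
    (h1 : IsIso (X.mv 0 ▷ K)) : Nonempty (Quo Λ X.vv) :=
  X.quo_of_keq Λ (X.keq1 h0 h1)

/-- **KEQ at height `2`** -/
theorem quo2 {K : T} (Λ : LocFunctor K) (h0 : ((p : ℤ) • 𝟙 P) ▷ K = 0)
    (h1 : X.mv 0 ▷ K = 0) (h2 : IsIso (X.mv 1 ▷ K)) : Nonempty (Quo Λ X.vv) :=
  X.quo_of_keq Λ (X.keq2 h0 h1 h2)

end BX

end Vale.Agent.P221X.EXI
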