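import Vale.Agent.P221X.EXI.Glue
import Vale.Agent.P221X.EXI.Coef
import Vale.Agent.P221X.EXI.KeqH
import Vale.Agent.P221X.EXI.Tr
import Vale.Agent.P221X.EXG.Q
import Vale.Agent.P221X.EXQ.Last0
import Vale.Agent.P221X.TC.Loc

/-!
# P221X, block EXIST: the quotient of `BP` by `v_3, v_4, …` exists for `p ≥ 5`
-/

open CategoryTheory MonoidalCategory Limits Pretriangulated

set_option linter.unusedSectionVars false

universe u

noncomputable section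

namespace Vale.Agent.P221X.EXI

open Vale.Agent.P251 Vale.Agent.P251.T Vale.Agent.P251.M Vale.Agent.P251.S Vale.Agent.P251.I
  Vale.Agent.P221X.TC

section gen

variable {T : Type u} [Category.{0} T] [Preadditive T] [HasZeroObject T] [HasShift T ℤ]
  [∀ n : ℤ, (shiftFunctor T n).Additive] [Pretriangulated T] [IsTriangulated T]
  [MonoidalCategory T] [SymmetricCategory T] [TensorTriangulated T] [MonoidalClosed T]
  [HasCoproducts.{0} T] [HasProducts.{0} T] [StableCat T]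
  {D : MUData T} {p : ℕ} [Fact p.Prime] {P : T} [MonObj P] [IsCommMonObj P]
  {b : D.R ⟶ P} [IsMonHom b] (X : BX p b)

include X in
theorem BX.conn : Conn (0 : ℤ) P := by
  obtain ⟨Rp, _, _, l, _, hl, f, _, g, _, _, hfg, _⟩ := P221.H746.exists_retract X.hD X.mon
  have h1 : Conn (0 : ℤ) D.R := P257.H762.BigCell.conn' D.conn_unit (P221.Loc.bigCell_R D)
  refine Conn.of_retract f g hfg fun k hk y => ?_
  obtain ⟨m, x, hm, hx⟩ := (P257.H80.IsPLoc.isLocPi hl).num k y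
  exact P221.H746.zero_of_smul_of_local (P257.H80.IsPLoc.isLoc hl).loc hm y
    (by rw [hx, h1 k hk x, zero_comp])

theorem BX.exists_isQuo (h5 : 5 ≤ p) :
    ∃ (C : T) (m : ModStr P C) (q : P ⟶ C), IsQuo X.vv m q := by
  obtain ⟨W⟩ := TD.exists_twr D h5
  obtain ⟨U₁⟩ := exists_stel W.f1
  obtain ⟨U₂⟩ := exists_stel W.f2
  obtain ⟨Λ₁⟩ := nonempty_locFunctor (H.nonempty_bLoc_of_stableCat (P ⊗ U₁.obj))
  obtain ⟨Λ₂⟩ := nonempty_locFunctor (H.nonempty_bLoc_of_stableCat (P ⊗ U₂.obj))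
  obtain ⟨Q₁⟩ := X.quoT1 W U₁ P Λ₁
  obtain ⟨Q₂⟩ := X.quoT2 W U₂ P Λ₂
  have hX := xIn X W Q₁ Q₂
    (fun N a => ⟨bij1 W b U₁ (Λ₁.isLocal N), surj_u U₁ Λ₁ a, ker_u U₁ Λ₁ a,
      odd_u (W.hur1 b) U₁ Λ₁ a W.finM⟩)
    (fun N a => ⟨bij2 W b U₂ (Λ₂.isLocal N), surj_u U₂ Λ₂ a, ker_u U₂ Λ₂ a,
      odd_u (W.hur2 b) U₂ Λ₂ a W.fin1⟩)
  obtain ⟨B, ⟨c⟩⟩ := exists_bIn W (k := fun j => dv p (j + 2)) D.conn_unit
    X.conn (fun _ => Int.natCast_nonneg _) (P221.H246.rbB X.hD X.mon) Q₁ Q₂ hX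
    (yIn W b U₁ U₂ Λ₁ Q₂.mod Q₁.loc Q₂.loc hX.o2) (rowQ W)
  exact X.last0 W.distM c

end gen

/-- **Row STD** -/
theorem rowSTD {T : St.SHCat} (S : St.Susp T) {p : ℕ} [Fact p.Prime] (h5 : 5 ≤ p) :
    Fin.RowSTD S p :=
  rowSTD_of fun _ _ _ _ _ _ X => X.exists_isQuo h5

end Vale.Agent.P221X.EXI
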