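import Vale.Agent.P221X.EXI.Idem
import Vale.Agent.P221X.EXI.Alg
import Vale.Agent.P221.H246.EtaT

/-!
# P221X, block EXIST, row KEQ: the classes `t^E (η v)^F` in `π_{2*}(B ⊗ B)`
-/

open CategoryTheory MonoidalCategory MonObj Limits Pretriangulated

set_option linter.unusedSectionVars false

universe u

noncomputable section

namespace Vale.Agent.P221X.EXI

open Vale.Agent.P251 Vale.Agent.P251.S Vale.Agent.P251.T Vale.Agent.P251.M Vale.Agent.P251.F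
  Vale.Agent.P251.I EvenSpheres Vale.Agent.P257.H80 Vale.Agent.P221.H246 Vale.Agent.P221.T
  Vale.Agent.P221.T.H520 Alg

variable {𝒯 : Type u} [Category.{0} 𝒯] [Preadditive 𝒯] [HasZeroObject 𝒯]
    [HasShift 𝒯 ℤ] [∀ n : ℤ, (shiftFunctor 𝒯 n).Additive] [Pretriangulated 𝒯] [IsTriangulated 𝒯]
    [MonoidalCategory 𝒯] [SymmetricCategory 𝒯] [TensorTriangulated 𝒯] [MonoidalClosed 𝒯]
    [HasCoproducts.{0} 𝒯] [HasProducts.{0} 𝒯] [StableCat 𝒯]
  {D : MUData 𝒯} {p : ℕ} [hp : Fact p.Prime] {B : 𝒯} [MonObj B] [IsCommMonObj B]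
  {b : D.R ⟶ B} [IsMonHom b] {Φ : MvPolynomial ℕ ℤ →+* HRing (stdEven 𝒯) B} {h : ℕ}

variable (p) in
/-- half of the degree of `v_{j+3}` -/
def kv (j : ℕ) : ℤ := ((p ^ (j + 2 + 1) - 1 : ℕ) : ℤ)

variable (p Φ) in
/-- the class `v_{j+3}` -/
def vj (j : ℕ) : (stdEven 𝒯).S (kv p j) ⟶ B := (Φ (MvPolynomial.X (j + 2))) (kv p j)

/-- half of the degree of `t^E (η v)^F` -/
def kx (x : Ix p h) : ℤ := dB p x.1.1 + Finsupp.weight (kv p) x.2

theorem kx_succ (E : Alg.Sm (2 - h) (p ^ h)) (F : ℕ →₀ ℕ) (j : ℕ) :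
    kx (p := p) (E, F) + kv p j = kx (p := p) (E, F + Finsupp.single j 1) := by
  rw [kx, kx, map_add, Finsupp.weight_single, one_smul, ← add_assoc]

theorem db_eq (x : Ix p h) : db p x = 2 * kx x := by
  rw [db, kx, dT_eq, mul_add, Finsupp.weight_apply, Finsupp.weight_apply, Finsupp.sum, Finsupp.sum,
    Finset.mul_sum]
  congr 1
  refine Finset.sum_congr rfl fun j _ => ?_
  rw [Vale.Agent.P221.H246.sV_eq, nsmul_eq_mul, nsmul_eq_mul, kv]
  ring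

variable (hb : IsBPMon p b)

/-- the coefficients -/
def ell : Z0 p →+* HRing (stdEven 𝒯) B := Z0.lift (pLoc_of_locO hb.loc)

variable (hΦ : lawOf b = (haz p).map Φ)

include hb hΦ

theorem of_vj (j : ℕ) : HRing.of (stdEven 𝒯) B (kv p j) (vj p Φ j) = Φ (MvPolynomial.X (j + 2)) :=
  of_X hb hΦ (j + 2)

theorem Om_eta0 (i : ℕ) : Om p b (ell hb) Φ (eta0 p i) =
    HRing.map (E := stdEven 𝒯) (inrM B B) (Φ (MvPolynomial.X i)) := by
  obtain ⟨g, hg, hc, ψ, hψ, h⟩ := eta0_spec p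
  rw [← hψ]
  exact Om_eta hb hΦ _ (φ0 p) ψ (φ0_X p) hg hc h i

theorem Om_eta0' (j : ℕ) : Om p b (ell hb) Φ (eta0 p (j + 2)) =
    HRing.of (stdEven 𝒯) (B ⊗ B) (kv p j) (vj p Φ j ≫ inrM B B) := by
  rw [Om_eta0 hb hΦ, ← of_vj hb hΦ, HRing.map_of]

theorem isHomog_b0 (x : Ix p h) : IsHomog (B ⊗ B) (kx x) (Om p b (ell hb) Φ (b0 p x)) := by
  rw [b0, map_mul, Om_monomial, map_one, map_one, _root_.one_mul, Finsupp.prod, map_prod]
  refine (isHomog_Sm _).mul (IsHomog.prod _ (fun j => (x.2 j : ℤ) * kv p j) _ fun j _ => ?_) ?_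
  · rw [map_pow, Om_eta0' hb hΦ]
    exact IsHomog.pow ⟨_, rfl⟩ _
  · rw [kx, Finsupp.weight_apply, Finsupp.sum]
    simp only [nsmul_eq_mul]

/-- **the class `t^E (η v)^F`** -/
def gam (x : Ix p h) : (stdEven 𝒯).S (kx x) ⟶ B ⊗ B := (isHomog_b0 hb hΦ x).choose

theorem of_gam (x : Ix p h) :
    HRing.of (stdEven 𝒯) (B ⊗ B) (kx x) (gam hb hΦ x) = Om p b (ell hb) Φ (b0 p x) :=
  (isHomog_b0 hb hΦ x).choose_spec.symm

theorem gam_succ (E : Alg.Sm (2 - h) (p ^ h)) (F : ℕ →₀ ℕ) (j : ℕ) :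
    gam hb hΦ (E, F + Finsupp.single j 1) = ((stdEven 𝒯).mu _ _ _ (kx_succ E F j)).inv ≫
      gam hb hΦ (E, F) ▷ _ ≫ (α_ _ _ _).hom ≫ B ◁ (ModStr.self B).ext (vj p Φ j) := by
  have h1 : gam hb hΦ (E, F + Finsupp.single j 1) =
      gmul (kx_succ E F j) (gam hb hΦ (E, F)) (vj p Φ j ≫ inrM B B) :=
    DirectSum.of_injective (β := (stdEven 𝒯).Gr (B ⊗ B)) _ (by
      change HRing.of (stdEven 𝒯) (B ⊗ B) _ _ = HRing.of (stdEven 𝒯) (B ⊗ B) _ _
      rw [← of_mul_of, of_gam, of_gam, b0_succ, map_mul, Om_eta0' hb hΦ])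
  rw [h1, gmul, EvenSpheres.ext, Category.assoc, MonoidalCategory.tensorHom_def,
    MonoidalCategory.whiskerLeft_comp, Category.assoc, Category.assoc,
    Vale.Agent.P251.Z.mul_inrM, associator_naturality_right_assoc,
    ← MonoidalCategory.whiskerLeft_comp]
  rfl

/-- **the local quotient by `v_3, v_4, …`** -/
theorem quo_of_keq {K : 𝒯} (Λ : LocFunctor K)
    (hγ : KEq K ((fr B B).ext (Sigma.desc (gam hb hΦ : ∀ x : Ix p h, _)))) :
    Nonempty (Quo Λ (Sigma.desc (vj p Φ))) := by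
  refine exists_quo' Λ _ _ (fun x => x.2 ≠ 0) hγ (fun ⟨E, F⟩ j => ?_) fun ⟨E, F⟩ hF => ?_
  · refine ⟨(E, F + Finsupp.single j 1), ((stdEven 𝒯).mu _ _ _ (kx_succ E F j)).hom,
      fun h0 => by simpa using DFunLike.congr_fun h0 j, ?_⟩
    rw [gam_succ, Iso.hom_inv_id_assoc]
  · obtain ⟨j, F', hj⟩ := exists_single_add hF
    obtain rfl : F = F' + Finsupp.single j 1 := hj.trans (add_comm _ _)
    exact ⟨j, ((stdEven 𝒯).mu _ _ _ (kx_succ E F' j)).inv ≫ gam hb hΦ (E, F') ▷ _ ≫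
      (α_ _ _ _).hom, by rw [gam_succ, Category.assoc, Category.assoc]⟩

end Vale.Agent.P221X.EXI
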