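import Vale.Agent.P221X.EXI.Idem
import Vale.Agent.P251.X.Push
import Vale.Agent.P251.M.GPush
import Vale.Agent.P251.M.QOut
import Vale.Agent.P251.M.BUPi

/-!
# P221X, block EXIST, row KEQ: from homotopy groups to `K`-equivalences

* `BijE g` : `g` is bijective on the even homotopy groups; `isIso_of_bijE`;
* `bijE_of_MP` : a family `w` which is a basis of `MP E B W` over `MP E P W`;
* `smul_zero_of`, `smul_bij_of` : the action of a homogeneous class on `MP E P W`.
-/

open CategoryTheory MonoidalCategory Limits Pretriangulated MonObj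

set_option linter.unusedSectionVars false

universe u

noncomputable section

namespace Vale.Agent.P221X.EXI.Keq

open Vale.Agent.P251 Vale.Agent.P251.T Vale.Agent.P251.S Vale.Agent.P251.M Vale.Agent.P251.X
open Vale.Agent.P251.M.EvenSpheres Vale.Agent.P251.S.ModStr

variable {T : Type u} [Category.{0} T] [Preadditive T] [HasZeroObject T] [HasShift T ℤ]
  [∀ n : ℤ, (shiftFunctor T n).Additive] [Pretriangulated T] [IsTriangulated T]
  [MonoidalCategory T] [SymmetricCategory T] [TensorTriangulated T] [MonoidalClosed T]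
  [HasCoproducts.{0} T] [HasProducts.{0} T] [StableCat T]

/-- bijective on the even homotopy groups -/
def BijE {A B : T} (g : A ⟶ B) : Prop :=
  ∀ n : ℤ, (∀ x : (stdEven T).S n ⟶ A, x ≫ g = 0 → x = 0) ∧
    ∀ y : (stdEven T).S n ⟶ B, ∃ x : (stdEven T).S n ⟶ A, x ≫ g = y

theorem BijE.iso {A B A' B' : T} {g : A ⟶ B} (hg : BijE g) (e : A' ⟶ A) [IsIso e]
    (e' : B ⟶ B') [IsIso e'] : BijE (e ≫ g ≫ e') := fun n => by
  refine ⟨fun x hx => ?_, fun y => ?_⟩
  · have h1 := (hg n).1 (x ≫ e) (by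
      rw [← cancel_mono e', zero_comp, ← hx]
      simp only [Category.assoc])
    rw [← cancel_mono e, h1, zero_comp]
  · obtain ⟨x, hx⟩ := (hg n).2 (y ≫ inv e')
    exact ⟨x ≫ inv e, by rw [Category.assoc, IsIso.inv_hom_id_assoc, reassoc_of% hx]; simp⟩

theorem isIso_of_bijE {A B : T} (g : A ⟶ B) (h0 : BijE g) (h1 : BijE (g ▷ Sph T 1)) :
    IsIso g := by
  have : IsInv (Sph T 1) := IsInv.of_inverse (L' := Sph T (-1))
    (tensorSph (-1) _ ≪≫ (shiftFunctorAdd' T 1 (-1) 0 (by ring)).symm.app _ ≪≫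
      (shiftFunctorZero T ℤ).app _)
  have e : ∀ n : ℤ, Sph T (2 * n + 1) ⊗ Sph T 1 ≅ (stdEven T).S (n + 1) := fun n =>
    tensorSph 1 _ ≪≫ (shiftFunctorAdd' T (2 * n + 1) 1 (2 * (n + 1)) (by ring)).symm.app _ ≪≫
      (stdSph (n + 1)).symm
  refine isIso_of_bijective_hom (fun k => (𝟙_ T)⟦k⟧)
    (fun k k' h => ⟨((shiftFunctorAdd' T k 1 k' h).app (𝟙_ T)).symm⟩)
    (fun X hX => StableCat.generator X hX) _ (fun k x hx => ?_) fun k y => ?_
  · obtain ⟨n, rfl | rfl⟩ := Int.even_or_odd' k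
    · have h2 := (h0 n).1 ((stdSph n).hom ≫ x) (by rw [Category.assoc, hx, comp_zero])
      rw [← cancel_epi (stdSph n).hom, h2, comp_zero]
    · have h2 := (h1 (n + 1)).1 ((e n).inv ≫ x ▷ _) (by
        rw [Category.assoc, ← comp_whiskerRight, hx, MonoidalPreadditive.zero_whiskerRight,
          comp_zero])
      refine whiskerRight_inj (Sph T 1) ?_
      rw [← cancel_epi (e n).inv, h2, MonoidalPreadditive.zero_whiskerRight, comp_zero]
  · obtain ⟨n, rfl | rfl⟩ := Int.even_or_odd' k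
    · obtain ⟨x, hx⟩ := (h0 n).2 ((stdSph n).hom ≫ y)
      exact ⟨(stdSph n).inv ≫ x, by rw [Category.assoc, hx, Iso.inv_hom_id_assoc]⟩
    · obtain ⟨x, hx⟩ := (h1 (n + 1)).2 ((e n).inv ≫ y ▷ _)
      obtain ⟨x', hx'⟩ := whiskerRight_surj (Sph T 1) ((e n).hom ≫ x)
      refine ⟨x', whiskerRight_inj (Sph T 1) ?_⟩
      rw [comp_whiskerRight, hx', Category.assoc, hx, Iso.hom_inv_id_assoc]

/-- a criterion for `K`-equivalences -/
theorem keq_of_bijE {A B : T} (g : A ⟶ B) (K : T) (h0 : BijE (g ▷ K))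
    (h1 : BijE (g ▷ (K ⊗ Sph T 1))) : KEq K g := by
  have h2 : IsIso (g ▷ K) := by
    refine isIso_of_bijE _ h0 ?_
    have h3 := h1.iso (α_ A K (Sph T 1)).hom (α_ B K (Sph T 1)).inv
    rwa [← associator_naturality_left_assoc, Iso.hom_inv_id, Category.comp_id] at h3
  have h4 : K ◁ g = (β_ K A).hom ≫ g ▷ K ≫ (β_ K B).inv := by
    rw [← BraidedCategory.braiding_naturality_right_assoc]
    simp
  change IsIso (K ◁ g)
  rw [h4]
  infer_instance

variable {P B : T} [MonObj P] [MonObj B] [IsCommMonObj B]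

theorem bijE_of_MP (φ : P ⟶ B) {I : Type} {k : I → ℤ} (w : ∀ a, (stdEven T).S (k a) ⟶ B)
    (W : T) (h : Function.Bijective fun x : I →₀ MP (stdEven T) P W =>
      x.sum fun a m => HRing.of (stdEven T) B (k a) (w a) • MP.push (stdEven T) φ W m) :
    BijE (Sigma.desc fun j => ((φ ⊗ₘ w j) ≫ μ[B]) ▷ W) := fun n => by
  classical
  refine ⟨fun x hx => ?_, fun y => ?_⟩
  · obtain ⟨t, g, rfl⟩ := compact_sum _ (isSphere_std n) x
    choose z hz using fun j => (gtw_bijective (E := stdEven T) (F := P) (Y := W)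
      (add_sub_cancel (k j) n)).2 (g j)
    let y : I →₀ MP (stdEven T) P W := Finsupp.onFinset t
      (fun j => if j ∈ t then MP.of _ P W (n - k j) (z j) else 0) fun a ha => by
        by_contra h1
        exact ha (if_neg h1)
    have hy : y = 0 := h.1 (by
      dsimp only [y]
      rw [Finsupp.onFinset_sum _ (fun a => by rw [map_zero, _root_.smul_zero]), Finsupp.sum_zero_index,
        ← map_zero (MP.of _ B W n), ← hx, Preadditive.sum_comp, map_sum]
      refine Finset.sum_congr rfl fun j hj => ?_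
      rw [if_pos hj, MP.push_of, MP.smul_of (add_sub_cancel (k j) n), Category.assoc,
        Sigma.ι_desc, ← hz, gtw_comp]
      rfl)
    refine Finset.sum_eq_zero fun j hj => ?_
    have h2 : MP.of _ P W (n - k j) (z j) = 0 := by
      have h3 := DFunLike.congr_fun hy j
      rwa [Finsupp.onFinset_apply, if_pos hj] at h3
    rw [← hz, MP.of_injective _ (h2.trans (map_zero _).symm), GBasis.gtw_zero, zero_comp]
  · obtain ⟨x, hx⟩ := h.2 (MP.of _ B W n y)
    refine ⟨∑ j ∈ x.support, gtw (add_sub_cancel (k j) n) (MP.comp _ P W (n - k j) (x j)) ≫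
      Sigma.ι (fun j => (P ⊗ (stdEven T).S (k j)) ⊗ W) j, ?_⟩
    have h1 := congrArg (MP.comp _ B W n) hx
    dsimp only at h1
    rw [MP.comp_of_same, Finsupp.sum, map_sum] at h1
    rw [Preadditive.sum_comp, ← h1]
    refine Finset.sum_congr rfl fun j _ => ?_
    rw [Category.assoc, Sigma.ι_desc, gtw_comp, MP.comp_of_smul (add_sub_cancel (k j) n),
      MP.comp_push]
    rfl

/-- the same for the first factor of `B ⊗ B` -/
theorem bijE_ext {I : Type} {k : I → ℤ} (w : ∀ a, (stdEven T).S (k a) ⟶ B ⊗ B)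
    (W : T) (h : Function.Bijective fun x : I →₀ MP (stdEven T) B W =>
      x.sum fun a m => HRing.of (stdEven T) (B ⊗ B) (k a) (w a) •
        MP.push (stdEven T) (inlM B B) W m) :
    BijE ((fr B B).ext (Sigma.desc w) ▷ W) := by
  have h1 := bijE_of_MP (inlM B B) w W h
  have : (tensorLeft B).IsLeftAdjoint := ⟨_, ⟨ihom.adjunction B⟩⟩
  have h2 : IsIso (Sigma.desc fun j => B ◁ Sigma.ι (fun j => (stdEven T).S (k j)) j) :=
    inferInstanceAs (IsIso (sigmaComparison (tensorLeft B) fun j => (stdEven T).S (k j)))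
  have h3 := isIso_desc_whiskerRight _ h2 W
  have h4 := h1.iso (inv (Sigma.desc fun j =>
    (B ◁ Sigma.ι (fun j => (stdEven T).S (k j)) j) ▷ W)) (𝟙 _)
  convert h4 using 1
  rw [Category.comp_id, IsIso.eq_inv_comp]
  refine Sigma.hom_ext _ _ fun j => ?_
  rw [Sigma.ι_desc_assoc, Sigma.ι_desc, ← comp_whiskerRight, comp_ext, Sigma.ι_desc,
    inlM_tensor_mul]
  rfl

theorem comp_smul {W : T} {j n : ℤ} (a : (stdEven T).S j ⟶ B) (m : MP (stdEven T) B W) :
    MP.comp _ B W n (HRing.of _ B j a • m) =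
      gtw (add_sub_cancel j n) (MP.comp _ B W (n - j) m) ≫ (self B).ext a ▷ W := by
  have h := gtw_comp (add_sub_cancel j n) (𝟙 B) a (MP.comp _ B W (n - j) m)
  rw [id_whiskerRight, Category.comp_id, id_tensorHom] at h
  rw [MP.comp_of_smul (add_sub_cancel j n)]
  exact h.symm

theorem smul_zero_of {W : T} {j : ℤ} (a : (stdEven T).S j ⟶ B)
    (h : (self B).ext a ▷ W = 0) (m : MP (stdEven T) B W) : HRing.of _ B j a • m = 0 :=
  MP.ext_comp fun n => by rw [comp_smul, h, comp_zero, map_zero]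

theorem smul_bij_of {W : T} {j : ℤ} (a : (stdEven T).S j ⟶ B)
    [IsIso ((self B).ext a ▷ W)] :
    Function.Bijective fun m : MP (stdEven T) B W => HRing.of _ B j a • m := by
  refine ⟨fun m m' h => MP.ext_comp fun n => ?_, fun y => ?_⟩
  · have h1 := congrArg (MP.comp _ B W (j + n)) h
    dsimp only at h1
    rw [comp_smul, comp_smul, cancel_mono] at h1
    have h2 := (gtw_bijective _).1 h1
    rwa [add_sub_cancel_left] at h2
  · induction y using MP.ind with
    | zero => exact ⟨0, _root_.smul_zero _⟩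
    | of n y =>
      obtain ⟨x, hx⟩ := (gtw_bijective (E := stdEven T) (F := B) (Y := W)
        (add_sub_cancel j n)).2 (y ≫ inv ((self B).ext a ▷ W))
      refine ⟨MP.of _ B W (n - j) x, ?_⟩
      have h1 := comp_smul (n := n) a (MP.of _ B W (n - j) x)
      rw [MP.comp_of_same, hx, Category.assoc, IsIso.inv_hom_id, Category.comp_id,
        MP.smul_of (add_sub_cancel j n), MP.comp_of_same] at h1
      dsimp only
      rw [MP.smul_of (add_sub_cancel j n), h1]
    | add x y hx hy =>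
      obtain ⟨x', rfl⟩ := hx
      obtain ⟨y', rfl⟩ := hy
      exact ⟨x' + y', _root_.smul_add _ _ _⟩

end Vale.Agent.P221X.EXI.Keq
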