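import Vale.Agent.P221X.EXI.QDefs

/-!
# P221X, block EXIST: the homotopy of the local quotients

`LH f u` : `u ⊗ V` is the localisation at `f` on homotopy; `Quo.surjH`, `Quo.kerH`, `Quo.bijH`,
`Quo.oddH` : the homotopy of `Q.X ⊗ V`.
-/

open CategoryTheory MonoidalCategory Limits Pretriangulated

set_option linter.unusedSectionVars false

universe u

noncomputable section

namespace Vale.Agent.P221X.EXI

open Vale.Agent.P251 Vale.Agent.P251.T Vale.Agent.P251.M Vale.Agent.P251.S Vale.Agent.P251.I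
  Vale.Agent.P221X.TC Vale.Agent.P251.S.ModStr

variable {T : Type u} [Category.{0} T] [Preadditive T] [HasZeroObject T] [HasShift T ℤ]
  [∀ n : ℤ, (shiftFunctor T n).Additive] [Pretriangulated T] [IsTriangulated T]
  [MonoidalCategory T] [SymmetricCategory T] [TensorTriangulated T] [MonoidalClosed T]
  [HasCoproducts.{0} T] [HasProducts.{0} T] [StableCat T] {V Z Z' : T} {d : ℤ}

variable (d) in
/-- suspension by `S^{2d}` -/
def dsp {j : ℤ} (x : Se T j ⟶ Z ⊗ V) : Se T (d + j) ⟶ (Z ⊗ Se T d) ⊗ V :=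
  ((stdEven T).mu d j (d + j) rfl).inv ≫ Se T d ◁ x ≫ (α_ _ _ _).inv ≫ (β_ _ Z).hom ▷ V

theorem exists_dsp {j : ℤ} (y : Se T (d + j) ⟶ (Z ⊗ Se T d) ⊗ V) :
    ∃ x : Se T j ⟶ Z ⊗ V, y = dsp d x := by
  obtain ⟨x, hx⟩ := whiskerLeft_surj (Se T d) (((stdEven T).mu d j (d + j) rfl).hom ≫ y ≫
    (β_ _ Z).inv ▷ V ≫ (α_ _ _ _).hom)
  exact ⟨x, by simp [dsp, hx]⟩

variable (f : Se T d ⊗ V ⟶ V)

theorem fw_dsp {j : ℤ} (x : Se T j ⟶ Z ⊗ V) :
    fw f Z (He.of _ j x) = He.of _ (d + j) (dsp d x ≫ (α_ _ _ _).hom ≫ Z ◁ f) := by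
  rw [fw_of, opf, sw_hom, dsp]
  simp only [Category.assoc]

theorem map_fw (g : Z ⟶ Z') (x : He (Z ⊗ V)) :
    He.map (g ▷ V) (fw f Z x) = fw f Z' (He.map (g ▷ V) x) := by
  induction x using He.ind with
  | zero => simp only [map_zero]
  | add x y hx hy => simp only [map_add, hx, hy]
  | of j x =>
    rw [He.map_of, fw_dsp, fw_dsp, He.map_of, dsp, dsp]
    congr 1
    simp only [Category.assoc, whiskerLeft_comp]
    rw [whisker_exchange, ← associator_naturality_left_assoc, ← comp_whiskerRight_assoc,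
      ← BraidedCategory.braiding_naturality_right, comp_whiskerRight_assoc,
      associator_inv_naturality_middle_assoc]

theorem map_iter (g : Z ⟶ Z') (n : ℕ) (x : He (Z ⊗ V)) :
    He.map (g ▷ V) ((fw f Z)^[n] x) = (fw f Z')^[n] (He.map (g ▷ V) x) :=
  Function.Semiconj.iterate_right (map_fw f g) n x

theorem fw_range (z : He (Z ⊗ (Se T d ⊗ V))) : ∃ a, fw f Z a = He.map (Z ◁ f) z := by
  induction z using He.ind with
  | zero => exact ⟨0, by simp only [map_zero]⟩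
  | add x y hx hy =>
    obtain ⟨a, ha⟩ := hx
    obtain ⟨b, hb⟩ := hy
    exact ⟨a + b, by simp only [map_add, ha, hb]⟩
  | of k z =>
    obtain ⟨j, rfl⟩ : ∃ j, k = d + j := ⟨k - d, by ring⟩
    obtain ⟨x, hx⟩ := exists_dsp (z ≫ (α_ _ _ _).inv)
    exact ⟨He.of _ j x, by rw [fw_dsp, ← hx, He.map_of]; simp⟩

theorem map_fw_zero {V' : T} {g : V ⟶ V'} (h : f ≫ g = 0) (a : He (Z ⊗ V)) :
    He.map (Z ◁ g) (fw f Z a) = 0 := by
  induction a using He.ind with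
  | zero => simp only [map_zero]
  | add x y hx hy => simp only [map_add, hx, hy, add_zero]
  | of j x =>
    rw [fw_dsp, He.map_of, Category.assoc, Category.assoc, ← whiskerLeft_comp, h]
    simp

theorem inj_of_fw (h : Function.Injective (fw f Z)) (k : ℤ) (z : Se T k ⟶ Z ⊗ (Se T d ⊗ V))
    (hz : z ≫ Z ◁ f = 0) : z = 0 := by
  obtain ⟨j, rfl⟩ : ∃ j, k = d + j := ⟨k - d, by ring⟩
  obtain ⟨x, hx⟩ := exists_dsp (z ≫ (α_ _ _ _).inv)
  have h1 : He.of _ j x = 0 := h (by rw [fw_dsp, ← hx]; simp [hz])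
  rw [He.of_eq_zero.1 h1] at hx
  rw [← cancel_mono (α_ _ _ _).inv, hx]
  simp [dsp]

/-- `u ⊗ V` is the localisation at `f` on homotopy. -/
structure LH {N L : T} (u : N ⟶ L) : Prop where
  bij : Function.Bijective (fw f L)
  surj : ∀ y : He (L ⊗ V), ∃ (n : ℕ) (x : He (N ⊗ V)), (fw f L)^[n] y = He.map (u ▷ V) x
  ker : ∀ x : He (N ⊗ V), He.map (u ▷ V) x = 0 → ∃ n : ℕ, (fw f N)^[n] x = 0
  odd : OddZero (N ⊗ V) → OddZero (L ⊗ V)

namespace Quo

variable {f} {K R W₁ : T} [MonObj R] {Λ : LocFunctor K} {v : W₁ ⟶ R} (Q : Quo Λ v)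

theorem map_s_r (x : He (Q.X ⊗ V)) : He.map (Q.r ▷ V) (He.map (Q.s ▷ V) x) = x := by
  rw [He.map_map, ← comp_whiskerRight, Q.s_r, id_whiskerRight, He.map_id]

theorem map_q (a : He (R ⊗ V)) : He.map (Q.q ▷ V) a = He.map (Q.r ▷ V) (He.map (Λ.u R ▷ V) a) := by
  rw [He.map_map, ← comp_whiskerRight, q]

theorem map_v_q (y : He ((R ⊗ W₁) ⊗ V)) :
    He.map (Q.q ▷ V) (He.map ((self R).ext v ▷ V) y) = 0 := by
  rw [He.map_map, ← comp_whiskerRight, Q.v_q, MonoidalPreadditive.zero_whiskerRight, He.map_zero']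

theorem bijH (h : Function.Bijective (fw f (Λ.L.obj R))) : Function.Bijective (fw f Q.X) := by
  refine ⟨fun x y e => ?_, fun y => ?_⟩
  · rw [← Q.map_s_r x, ← Q.map_s_r y, h.1 (a₁ := He.map (Q.s ▷ V) x) (a₂ := He.map (Q.s ▷ V) y)
      (by rw [← map_fw, ← map_fw, e])]
  · obtain ⟨x, hx⟩ := h.2 (He.map (Q.s ▷ V) y)
    exact ⟨_, by rw [← map_fw, hx, Q.map_s_r]⟩

theorem oddH (h : OddZero (Λ.L.obj R ⊗ V)) : OddZero (Q.X ⊗ V) :=
  h.retract (Q.s ▷ V) (Q.r ▷ V) (by rw [← comp_whiskerRight, Q.s_r, id_whiskerRight])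

theorem surjH (h : LH f (Λ.u R)) (x : He (Q.X ⊗ V)) :
    ∃ (n : ℕ) (a : He (R ⊗ V)), (fw f Q.X)^[n] x = He.map (Q.q ▷ V) a := by
  obtain ⟨n, a, ha⟩ := h.surj (He.map (Q.s ▷ V) x)
  exact ⟨n, a, by rw [Q.map_q, ← ha, map_iter, Q.map_s_r]⟩

theorem kerH (h : LH f (Λ.u R)) (h' : LH f (Λ.u (R ⊗ W₁))) (a : He (R ⊗ V))
    (ha : He.map (Q.q ▷ V) a = 0) :
    ∃ (n : ℕ) (y : He ((R ⊗ W₁) ⊗ V)), He.map ((self R).ext v ▷ V) y = (fw f R)^[n] a := by
  have h1 : ∀ x, He.map (Q.r ▷ V) x = 0 →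
      x = He.map (Λ.L.map ((self R).ext v) ▷ V) (He.map (Q.β ▷ V) x) := fun x hx =>
    He.ext_cp fun j => by
      rw [He.cp_map, He.cp_map]
      exact Q.ker _ (by rw [← He.cp_map, hx, map_zero])
  obtain ⟨n, y, hy⟩ := h'.surj (He.map (Q.β ▷ V) (He.map (Λ.u R ▷ V) a))
  obtain ⟨m, hm⟩ := h.ker ((fw f R)^[n] a - He.map ((self R).ext v ▷ V) y) (by
    rw [map_sub, map_iter, h1 _ ((Q.map_q a).symm.trans ha), ← map_iter, hy, He.map_map,
      He.map_map, ← comp_whiskerRight, ← comp_whiskerRight, Λ.u_naturality, sub_self])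
  refine ⟨m + n, (fw f _)^[m] y, ?_⟩
  rw [iterate_map_sub, sub_eq_zero] at hm
  rw [map_iter, ← hm, Function.iterate_add_apply]

end Quo

end Vale.Agent.P221X.EXI
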